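import Vale.Agent.P284.H501.K.Vol

/-!
# P284 (helper501), K11: comparison of the volume on tubes with Lebesgue measure
-/

open scoped Manifold ContDiff Topology Pointwise ComplexConjugate ComplexOrder Matrix ENNReal
open Filter Set Metric MeasureTheory

noncomputable section

set_option linter.unusedSectionVars false

namespace Vale.Agent.P284.H501.K

open Vale.Agent.P272.K Vale.Agent.P284.H248 Vale.Agent.P284.H894 Vale.Agent.P284.H894.G
  Vale.Agent.P284.H894.V Vale.Agent.P284.H894.W Vale.Agent.P284.H639.V Vale.Agent.P284.H66.S7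
  Vale.Agent.P284.H650 Vale.Agent.P284.H551 Vale.Agent.P284.H224 Vale.Agent.P284.H494
  Vale.Agent.P284.H10

section
variable {q : ℕ}

/-- the integral of the bump function -/
def mq (q : ℕ) : ℝ := ∫ x, b0 q x

theorem mq_pos (q : ℕ) : 0 < mq q := (b0 q).integral_pos

theorem ph_meas (ρ : ℝ) : Measurable fun z : Cm q × Cm q => ph z.1 ρ z.2 := by
  unfold ph
  have h1 : Continuous fun z : Cm q × Cm q => ρ⁻¹ • (z.2 - z.1) :=
    (continuous_snd.sub continuous_fst).const_smul ρ⁻¹
  exact (continuous_const.mul ((b0 q).continuous.comp h1)).measurable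

/-- the integral over the centre -/
theorem lint_ph {ρ : ℝ} (hρ : 0 < ρ) (x : Cm q) :
    ∫⁻ a, ENNReal.ofReal (ph a ρ x) = ENNReal.ofReal (mq q) := by
  have hc : Continuous fun a : Cm q => ph a ρ x := by
    unfold ph
    have h1 : Continuous fun a : Cm q => ρ⁻¹ • (x - a) :=
      (continuous_const.sub continuous_id).const_smul ρ⁻¹
    exact continuous_const.mul ((b0 q).continuous.comp h1)
  have hs : HasCompactSupport fun a : Cm q => ph a ρ x := by
    refine HasCompactSupport.intro (isCompact_closedBall x ρ) fun a ha => ph_zero hρ fun h => ha ?_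
    rw [mem_ball, dist_comm] at h
    exact mem_closedBall.2 h.le
  rw [← ofReal_integral_eq_lintegral_ofReal (hc.integrable_of_hasCompactSupport hs)
    (Eventually.of_forall fun a => ph_nonneg a x)]
  congr 1
  have h1 : ∫ a, ph a ρ x = ∫ a : Cm q, (ρ ^ (2 * q))⁻¹ * b0 q (ρ⁻¹ • a) :=
    integral_sub_left_eq_self (fun u : Cm q => (ρ ^ (2 * q))⁻¹ * b0 q (ρ⁻¹ • u)) volume x
  rw [h1, integral_const_mul,
    Measure.integral_comp_inv_smul_of_nonneg volume (fun u : Cm q => b0 q u) hρ.le,
    finrank_real_of_complex, smul_eq_mul, ← mul_assoc]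
  simp only [Module.finrank_fintype_fun_eq_card, Fintype.card_fin]
  rw [inv_mul_cancel₀ (pow_ne_zero _ hρ.ne'), one_mul, mq]

end

section
variable {n q : ℕ} {Γ X E : Type} [Group Γ] [TopologicalSpace X] [ChartedSpace (Cm n) X]
  [TopologicalSpace E] [MulAction Γ E] {p : E → X} {C : Coc n Γ}
  {w : Chart n X → Cm n → Matrix (Fin n) (Fin n) ℂ} {B : ℝ}
  {P : PU C} {K : KM C} {D : ECoc p C} {F : E → Cm q}
  [MeasurableSpace E] [BorelSpace E] (hG : IsGalois Γ p) {N : Subgroup Γ} {R : Set (Cm q)}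

theorem count_of_fin {c : Γ → Cm q} (hfin : ∀ R : ℝ, {g : Γ | ‖c g‖ ≤ R}.Finite) :
    Countable Γ := by
  have h1 : (univ : Set Γ) = ⋃ k : ℕ, {g : Γ | ‖c g‖ ≤ k} := by
    symm
    rw [eq_univ_iff_forall]
    intro g
    obtain ⟨k, hk⟩ := exists_nat_ge ‖c g‖
    exact mem_iUnion.2 ⟨k, hk⟩
  rw [← Set.countable_univ_iff, h1]
  exact Set.countable_iUnion fun k => (hfin k).countable

theorem mu_sfin [Countable Γ] : SFinite (mu P K D F) := by
  have hf : Finite C.I := by
    have := C.fin
    infer_instance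
  unfold mu mu1
  infer_instance

theorem lint_swap [SFinite (mu P K D F)] (hFc : Continuous F) (S : Set (Cm q)) (O : Set E) (ρ : ℝ)
    {M : E → ℝ≥0∞} (hM : Measurable M) :
    ∫⁻ a in S, ∫⁻ z in O, ENNReal.ofReal (ph a ρ (F z)) * M z ∂(mu P K D F) =
      ∫⁻ z in O, (∫⁻ a in S, ENNReal.ofReal (ph a ρ (F z))) * M z ∂(mu P K D F) := by
  rw [lintegral_lintegral_swap]
  · refine lintegral_congr fun z => ?_
    rw [lintegral_mul_const]
    have h1 : Measurable fun a : Cm q => (a, F z) := measurable_id.prodMk measurable_const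
    exact ((ph_meas ρ).comp h1).ennreal_ofReal
  · have h1 : Measurable fun y : Cm q × E => (y.1, F y.2) :=
      measurable_fst.prodMk (hFc.measurable.comp measurable_snd)
    exact (((ph_meas ρ).comp h1).ennreal_ofReal.mul (hM.comp measurable_snd)).aemeasurable

include hG in
theorem lint_vol (hD : TD F N R)
    (hF : HolB p w F B) {c : Γ → Cm q}
    (hc : ∀ (g : Γ) y, F (g • y) = F y + c g)
    (hfin : ∀ R : ℝ, {g : Γ | ‖c g‖ ≤ R}.Finite) {v₀ : ℝ}
    {σ : Cm q → E} {t : Cm q} {r : ℝ} (hσ : IsSec F R σ t r) {a : Cm q} {ρ : ℝ}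
    (h : ∫ z in tube F σ t r, ph a ρ (F z) ∂(mu P K D F) = v₀) :
    ∫⁻ z in tube F σ t r, ENNReal.ofReal (ph a ρ (F z)) ∂(mu P K D F) = ENNReal.ofReal v₀ := by
  rw [← h, ofReal_integral_eq_lintegral_ofReal
    (tube_int (P := P) (K := K) (D := D) hG hF hD.cont hc hfin (tube_tub hD hσ)
      (ph_smooth a ρ).continuous) (Eventually.of_forall fun z => ph_nonneg a _)]

include hG in
/-- open sets -/
theorem vol_open (hD : TD F N R)
    (hF : HolB p w F B) {c : Γ → Cm q}
    (hc : ∀ (g : Γ) y, F (g • y) = F y + c g)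
    (hfin : ∀ R : ℝ, {g : Γ | ‖c g‖ ≤ R}.Finite) {v₀ : ℝ}
    {σ : Cm q → E} {t : Cm q} {r : ℝ} (hσ : IsSec F R σ t r)
    (h : ∀ (a : Cm q) (ρ : ℝ), 0 < ρ → dist a t + ρ < r →
      ∫ z in tube F σ t r, ph a ρ (F z) ∂(mu P K D F) = v₀) {U : Set (Cm q)} (hU : IsOpen U)
    (hUb : U ⊆ ball t r) : ENNReal.ofReal v₀ * volume U ≤
      ENNReal.ofReal (mq q) * mu P K D F (tube F σ t r ∩ F ⁻¹' U) := by
  have hcount : Countable Γ := count_of_fin hfin
  have hsf : SFinite (mu P K D F) := mu_sfin
  have hT := tube_tub hD hσ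
  set ρ : ℕ → ℝ := fun k => ((k : ℝ) + 1)⁻¹ with hρ
  have hρ0 : ∀ k, 0 < ρ k := fun k => by positivity
  set S : ℕ → Set (Cm q) := fun k => (thickening (ρ k) Uᶜ)ᶜ ∩ {a | dist a t + ρ k < r} with hS
  have hSm : ∀ k, MeasurableSet (S k) := fun k =>
    isOpen_thickening.measurableSet.compl.inter
      (isOpen_lt (by fun_prop) continuous_const).measurableSet
  have hmono : Monotone S := by
    intro k l hkl a ha
    have h1 : ρ l ≤ ρ k := by
      show ((l : ℝ) + 1)⁻¹ ≤ ((k : ℝ) + 1)⁻¹
      have : (k : ℝ) ≤ l := by exact_mod_cast hkl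
      gcongr
    refine ⟨fun h2 => ha.1 (thickening_mono h1 _ h2), ?_⟩
    have h3 : dist a t + ρ k < r := ha.2
    show dist a t + ρ l < r
    linarith
  have hUn : ⋃ k, S k = U := by
    refine Subset.antisymm (iUnion_subset fun k a ha => ?_) fun a ha => ?_
    · by_contra h1
      exact ha.1 (self_subset_thickening (hρ0 k) _ h1)
    · obtain ⟨ε, hε, hb⟩ := Metric.isOpen_iff.1 hU a ha
      have h2 : dist a t < r := hUb ha
      obtain ⟨k, hk⟩ := exists_nat_one_div_lt (lt_min hε (sub_pos.2 h2))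
      have hk' : ρ k < min ε (r - dist a t) := by
        rw [hρ]
        simpa using hk
      refine mem_iUnion.2 ⟨k, fun h3 => ?_, ?_⟩
      · obtain ⟨x, hx, hd⟩ := mem_thickening_iff.1 h3
        refine hx (hb ?_)
        rw [mem_ball, dist_comm]
        exact hd.trans (hk'.trans_le (min_le_left _ _))
      · show dist a t + ρ k < r
        linarith [hk'.trans_le (min_le_right _ _)]
  have hk : ∀ k, ENNReal.ofReal v₀ * volume (S k) ≤
      ENNReal.ofReal (mq q) * mu P K D F (tube F σ t r ∩ F ⁻¹' U) := by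
    intro k
    have e1 : ∫⁻ a in S k, ∫⁻ z in tube F σ t r, ENNReal.ofReal (ph a (ρ k) (F z)) * (fun _ => 1) z
        ∂(mu P K D F) = ENNReal.ofReal v₀ * volume (S k) := by
      rw [← setLIntegral_const]
      refine setLIntegral_congr_fun (hSm k) fun a ha => ?_
      simp only [mul_one]
      exact lint_vol hG hD hF hc hfin hσ (h a (ρ k) (hρ0 k) ha.2)
    rw [← e1, lint_swap hD.cont (S k) (tube F σ t r) (ρ k) measurable_const]
    have hUm : MeasurableSet (F ⁻¹' U) := (hU.preimage hD.cont).measurableSet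
    calc ∫⁻ z in tube F σ t r, (∫⁻ a in S k, ENNReal.ofReal (ph a (ρ k) (F z))) * (fun _ => 1) z
          ∂(mu P K D F)
        ≤ ∫⁻ z in tube F σ t r, (F ⁻¹' U).indicator (fun _ => ENNReal.ofReal (mq q)) z
          ∂(mu P K D F) := by
          refine lintegral_mono fun z => ?_
          simp only [mul_one]
          by_cases hz : z ∈ F ⁻¹' U
          · rw [indicator_of_mem hz, ← lint_ph (hρ0 k) (F z)]
            exact setLIntegral_le_lintegral _ _
          · rw [indicator_of_notMem hz]
            have h0 : ∀ a ∈ S k, ENNReal.ofReal (ph a (ρ k) (F z)) = 0 := by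
              intro a ha
              rw [ph_zero (hρ0 k), ENNReal.ofReal_zero]
              intro h1
              refine ha.1 (mem_thickening_iff.2 ⟨F z, hz, ?_⟩)
              rw [dist_comm]
              exact h1
            rw [setLIntegral_congr_fun (hSm k) h0]
            simp
      _ = ENNReal.ofReal (mq q) * mu P K D F (tube F σ t r ∩ F ⁻¹' U) := by
          rw [lintegral_indicator hUm, setLIntegral_const, Measure.restrict_apply hUm, inter_comm]
  have hsup : volume U = ⨆ k, volume (S k) := by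
    rw [← hUn]
    exact hmono.measure_iUnion
  rw [hsup, ENNReal.mul_iSup]
  exact iSup_le hk

include hG in
/-- **the volume on a tube dominates Lebesgue measure** -/
theorem vol_le (hD : TD F N R)
    (hF : HolB p w F B) {c : Γ → Cm q}
    (hc : ∀ (g : Γ) y, F (g • y) = F y + c g)
    (hfin : ∀ R : ℝ, {g : Γ | ‖c g‖ ≤ R}.Finite) {v₀ : ℝ}
    {σ : Cm q → E} {t : Cm q} {r : ℝ} (hσ : IsSec F R σ t r)
    (h : ∀ (a : Cm q) (ρ : ℝ), 0 < ρ → dist a t + ρ < r →
      ∫ z in tube F σ t r, ph a ρ (F z) ∂(mu P K D F) = v₀) {g : Cm q → ℝ≥0∞}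
    (hg : Measurable g) : ENNReal.ofReal v₀ * ∫⁻ s in ball t r, g s ≤
      ENNReal.ofReal (mq q) * ∫⁻ y in tube F σ t r, g (F y) ∂(mu P K D F) := by
  have hT := tube_tub hD hσ
  have hFm : Measurable F := hD.cont.measurable
  set ν : Measure (Cm q) := ((mu P K D F).restrict (tube F σ t r)).map F with hν
  have hfinO : (mu P K D F) (tube F σ t r) < ⊤ := by
    have hsub : tube F σ t r ⊆ {y | ‖F y‖ ≤ ‖t‖ + r} := by
      intro y hy
      have h2 := mem_ball_iff_norm.1 (hT.sub _ hy)
      show ‖F y‖ ≤ _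
      calc ‖F y‖ = ‖t + (F y - t)‖ := by congr 1; abel
        _ ≤ ‖t‖ + ‖F y - t‖ := norm_add_le _ _
        _ ≤ _ := by linarith
    exact (measure_mono hsub).trans_lt (mu_fin hG hF hD.cont hc hfin _)
  have hfm : IsFiniteMeasure ((mu P K D F).restrict (tube F σ t r)) := ⟨by
    rw [Measure.restrict_apply MeasurableSet.univ, univ_inter]
    exact hfinO⟩
  have hνf : IsFiniteMeasure ν := Measure.isFiniteMeasure_map _ _
  have hopen : ∀ U : Set (Cm q), IsOpen U → U ⊆ ball t r →
      ENNReal.ofReal v₀ * volume U ≤ ENNReal.ofReal (mq q) * ν U := by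
    intro U hU hUb
    have h1 := vol_open (P := P) (K := K) (D := D) hG hD hF hc hfin hσ h hU hUb
    rwa [hν, Measure.map_apply hFm hU.measurableSet,
      Measure.restrict_apply (hFm hU.measurableSet), inter_comm]
  have hle : ENNReal.ofReal v₀ • volume.restrict (ball t r) ≤ ENNReal.ofReal (mq q) • ν := by
    refine Measure.le_iff.2 fun S hS => ?_
    rw [Measure.smul_apply, Measure.smul_apply, smul_eq_mul, smul_eq_mul,
      Measure.restrict_apply hS]
    rw [Set.measure_eq_iInf_isOpen S ν, ENNReal.mul_iInf_of_ne (by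
      simpa using mq_pos q) ENNReal.ofReal_ne_top]
    refine le_iInf fun U => ?_
    by_cases hSU : S ⊆ U
    · by_cases hU : IsOpen U
      · simp only [hSU, hU, iInf_pos]
        calc ENNReal.ofReal v₀ * volume (S ∩ ball t r)
            ≤ ENNReal.ofReal v₀ * volume (U ∩ ball t r) := by gcongr
          _ ≤ ENNReal.ofReal (mq q) * ν (U ∩ ball t r) :=
              hopen _ (hU.inter isOpen_ball) inter_subset_right
          _ ≤ _ := by
              gcongr
              exact inter_subset_left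
      · simp only [hSU, hU, iInf_pos, iInf_neg, not_false_iff]
        rw [ENNReal.mul_top (by simpa using mq_pos q)]
        exact le_top
    · simp only [hSU, iInf_neg, not_false_iff]
      rw [ENNReal.mul_top (by simpa using mq_pos q)]
      exact le_top
  have h2 := lintegral_mono' hle (le_refl g)
  rw [lintegral_smul_measure, lintegral_smul_measure, hν, lintegral_map hg hFm] at h2
  simpa only [smul_eq_mul] using h2

end

end Vale.Agent.P284.H501.K
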