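import Vale.Agent.P284.H501.K.Sn
import Vale.Agent.P284.H136.K9.Quo

/-!
# P284 (helper501), K11: T5 for compact Kähler manifolds
-/

open scoped Manifold ContDiff Topology Pointwise ComplexConjugate ComplexOrder Matrix ENNReal
open Filter Set Metric MeasureTheory

noncomputable section

set_option linter.unusedSectionVars false

namespace Vale.Agent.P284.H501.K

open Vale.Agent.P272.K Vale.Agent.P284.H248 Vale.Agent.P284.H894 Vale.Agent.P284.H894.G
  Vale.Agent.P284.H894.V Vale.Agent.P284.H894.W Vale.Agent.P284.H639.V Vale.Agent.P284.H66.S7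
  Vale.Agent.P284.H650 Vale.Agent.P284.H551 Vale.Agent.P284.H494
  Vale.Agent.P284.H10 Vale.Agent.P284.H672

section
variable {n q : ℕ} {Γ X E : Type} [Group Γ] [TopologicalSpace X] [ChartedSpace (Cm n) X]
  [TopologicalSpace E] [MulAction Γ E] {p : E → X}
  {w : Chart n X → Cm n → Matrix (Fin n) (Fin n) ℂ} {B : ℝ} {F : E → Cm q}
  {c : Γ → Cm q}

theorem q_le [IsManifold 𝓘(ℂ, Cm n) ω X] (hp : IsCoveringMap p) (hF : HolB p w F B) {y : E} (hy : Reg (n := n) p F y) :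
    q ≤ n := by
  obtain ⟨e, ε, hε, hyε, -, -⟩ := H10.exists_ch (n := n) hp y univ_mem
  have hs := (hε.reg_iff hp hF hyε).1 hy
  have h1 := LinearMap.finrank_le_finrank_of_surjective (f := (fderiv ℂ (F ∘ ε.symm) (ε y) :
    Cm n →ₗ[ℂ] Cm q)) hs
  simpa using h1

theorem fin_of_inj [Nonempty E] (hA : Per p w F c) (hinj : ∀ g, c g = 0 → g = 1) (R : ℝ) :
    {g : Γ | ‖c g‖ ≤ R}.Finite := by
  refine Set.Finite.of_finite_image ((hA.disc R).subset ?_) (f := c) fun g _ g' _ h => ?_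
  · rintro v ⟨g, hg, rfl⟩
    exact ⟨⟨g, rfl⟩, hg⟩
  · have h1 : c (g * g'⁻¹) = 0 := by
      rw [H224.per_add hA, H224.per_inv hA, h, add_neg_cancel]
    exact mul_inv_eq_one.1 (hinj _ h1)

/-- **T5, quantitative form, injective periods** -/
theorem t5q [T2Space X] [CompactSpace X] [ConnectedSpace X] [IsManifold 𝓘(ℂ, Cm n) ω X]
    [ConnectedSpace E] [MeasurableSpace E] [BorelSpace E] {C : Coc n Γ} (P : PU C) (K : KM C)
    (D : ECoc p C) (hG : IsGalois Γ p) (hA : Per p w F c) (hinj : ∀ g, c g = 0 → g = 1)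
    (hq : 1 ≤ q) (hex : ∃ y, Reg (n := n) p F y) :
    ∃ C₀ : ℝ≥0∞, C₀ ≠ ⊤ ∧ ∀ (W : Type) [NormedAddCommGroup W] [InnerProductSpace ℂ W]
      (N : E → ℝ≥0∞), NF n p F W N → ∃ s : Cm q → ℝ≥0∞,
        (∀ y, F y ∈ RV n p F → N y ≤ s (F y)) ∧
        (∀ S : Set (Cm q), MeasurableSet S →
          ∫⁻ t in S, s t ≤ C₀ * ∫⁻ z in F ⁻¹' thickening 1 S, N z ∂(mu P K D F)) ∧
        ∀ R : ℝ, ∫⁻ z in {z | ‖F z‖ ≤ R}, N z ∂(mu P K D F) < ⊤ := by
  obtain ⟨B, hB⟩ := hA.hol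
  have hfin := fin_of_inj hA hinj
  have hD := H224.td hq hG hA hex
  obtain ⟨y₀, hy₀⟩ := hex
  have hqn : q ≤ n := q_le hG.cov hB hy₀
  obtain ⟨v₀, hv₀, hv⟩ := vol_const (P := P) (K := K) (D := D) hG hD hqn hB hA.equiv hfin
    fun y hy => hy y rfl
  refine ⟨(ENNReal.ofReal v₀)⁻¹ * ENNReal.ofReal (mq q), ?_, fun W _ _ N hN => ?_⟩
  · exact ENNReal.mul_ne_top (ENNReal.inv_ne_top.2 (by simpa using hv₀)) ENNReal.ofReal_ne_top
  · exact ⟨sN P K D F N v₀, fun y hy => le_sN hG hD hB hA.equiv hfin hv₀ hv hN hy,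
      fun S hS => int_sN hD.cont hfin hv₀ (hN.meas hD.cont) hS,
      fun R => hN.fin hG hqn hB hD.cont hA.equiv hfin R⟩

open Classical in
/-- the square of the norm at the regular points -/
def nrm (n : ℕ) {X E : Type} [TopologicalSpace X] [ChartedSpace (Cm n) X] [TopologicalSpace E]
    (p : E → X) {q : ℕ} (F : E → Cm q) {W : Type} [NormedAddCommGroup W] (h : E → W) (y : E) :
    ℝ≥0∞ := if Reg (n := n) p F y then ENNReal.ofReal (‖h y‖ ^ 2) else 0

end

section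
variable {n q : ℕ} {Γ X E : Type} [Group Γ] [TopologicalSpace X] [ChartedSpace (Cm n) X]
  [TopologicalSpace E] [MulAction Γ E] {p : E → X}
  {w : Chart n X → Cm n → Matrix (Fin n) (Fin n) ℂ} {B : ℝ} {F : E → Cm q}
  {c : Γ → Cm q} {W : Type} [NormedAddCommGroup W] [InnerProductSpace ℂ W] {h : E → W}

/-- the norm on the quotient by the kernel of the periods -/
theorem nrm_inv [Nonempty E] (hG : IsGalois Γ p) (hA : Per p w F c)
    (hker : ∀ g : Γ, c g = 0 → ∀ y, Reg (n := n) p F y → ‖h (g • y)‖ = ‖h y‖) (g : Γ)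
    (hg : g ∈ H224.ker hA) (y : E) : nrm n p F h (g • y) = nrm n p F h y := by
  unfold nrm
  by_cases hy : Reg (n := n) p F y
  · rw [if_pos ((H224.per_reg_iff hG hA).2 hy), if_pos hy, hker g hg y hy]
  · rw [if_neg fun h1 => hy ((H224.per_reg_iff hG hA).1 h1), if_neg hy]

theorem nf_quo [Nonempty E] [IsManifold 𝓘(ℂ, Cm n) ω X] (hG : IsGalois Γ p) (hA : Per p w F c)
    [(H224.ker hA).Normal] (hS : SheetHol n p F h)
    (hker : ∀ g : Γ, c g = 0 → ∀ y, Reg (n := n) p F y → ‖h (g • y)‖ = ‖h y‖) :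
    NF n (H885.toX hG (H224.ker hA)) (H136.K9.Fq hA) W
      (H885.desc (H224.ker hA) (nrm n p F h) (nrm_inv hG hA hker)) where
  loc a ha := by
    obtain ⟨y, rfl⟩ := H885.mk_surjective (H224.ker hA) a
    have hy : Reg (n := n) p F y := (H885.reg_desc hG (H224.ker hA) _ y).1 ha
    obtain ⟨f, h1, h2⟩ := hS.loc y hy
    refine ⟨f, h1, (H885.eventually_mk hG (H224.ker hA) y).2 ?_⟩
    obtain ⟨B, hB⟩ := hA.hol
    have h3 : ∀ᶠ y' in 𝓝 y, Reg (n := n) p F y' := by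
      have h4 := H10.reg_open (n := n) hG.cov hB
      exact h4.mem_nhds hy
    filter_upwards [h2, h3] with y' h5 h6
    show nrm n p F h y' = ENNReal.ofReal (‖f (F y')‖ ^ 2)
    rw [nrm, if_pos h6, h5]
  ext a e f he hf hfF ξ := by
    obtain ⟨y, rfl⟩ := H885.mk_surjective (H224.ker hA) a
    obtain ⟨φ, h1, h2⟩ := hS.ext y e f he hf ((H885.eventually_mk hG (H224.ker hA) y).1 hfF) ξ
    refine ⟨φ, h1, (H885.eventually_mk hG (H224.ker hA) y).2 ?_⟩
    filter_upwards [h2] with y' h3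
    show ENNReal.ofReal (‖(Matrix.of fun i j => fderiv ℂ f (e (p y')) (ξ j) i).det‖ ^ 2) *
      nrm n p F h y' ≤ ENNReal.ofReal (‖φ (e (p y'))‖ ^ 2)
    by_cases h4 : Reg (n := n) p F y'
    · rw [nrm, if_pos h4, ← ENNReal.ofReal_mul (by positivity), ← mul_pow, ← norm_smul, h3 h4]
    · rw [nrm, if_neg h4, mul_zero]
      exact zero_le
  out a ha := by
    obtain ⟨y, rfl⟩ := H885.mk_surjective (H224.ker hA) a
    have hy : ¬ Reg (n := n) p F y := fun h1 => ha ((H885.reg_desc hG (H224.ker hA) _ y).2 h1)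
    show nrm n p F h y = 0
    rw [nrm, if_neg hy]

end

/-- **T5 for compact Kähler manifolds** -/
theorem t5K : H213.K.T5K := by
  intro n q X _ _ _ _ _ _ w hw E Γ _ _ _ _ p hG F c hA hex W _ _ _ h hS hker
  rcases Nat.eq_zero_or_pos q with rfl | hq
  · obtain ⟨y₀, -⟩ := hex
    refine ⟨fun _ => ENNReal.ofReal (‖h y₀‖ ^ 2), fun R => ?_, fun y _ => ?_⟩
    · rw [lintegral_const, Measure.restrict_apply MeasurableSet.univ, univ_inter]
      exact ENNReal.mul_lt_top ENNReal.ofReal_lt_top measure_ball_lt_top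
    · have h1 : h y = h y₀ := H672.const_of_loc (F := F) (C := univ) isPreconnected_univ
        (v := F y₀) (fun x _ => Subsingleton.elim _ _) (fun x _ => by
          obtain ⟨f, -, hf⟩ := hS.loc x (H224.reg_zero x)
          exact ⟨f, hf⟩) (mem_univ _) (mem_univ _)
      rw [h1]
  have hNor : (H224.ker hA).Normal := H136.K9.ker_normal hA
  have hcE : ConnectedSpace (H885.Quo E (H224.ker hA)) := H885.connected_quo (H224.ker hA)
  borelize (H885.Quo E (H224.ker hA))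
  have hG' := H885.isGalois_toX hG (H224.ker hA)
  obtain ⟨C, D, K, ⟨P⟩, -⟩ := exists_eCoc hw hG'
  obtain ⟨y₀, hy₀⟩ := hex
  obtain ⟨C₀, hC₀, hmain⟩ := t5q P K D hG' (H136.K9.per_quo hG hA) (H136.K9.cq_inj hA) hq
    ⟨H885.mk (H224.ker hA) y₀, (H885.reg_desc hG (H224.ker hA) _ y₀).2 hy₀⟩
  obtain ⟨s, hs1, hs2, hs3⟩ := hmain W _ (nf_quo hG hA hS hker)
  refine ⟨s, fun R => ?_, fun y hy => ?_⟩
  · refine (hs2 _ measurableSet_ball).trans_lt (ENNReal.mul_lt_top hC₀.lt_top ?_)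
    refine lt_of_le_of_lt (lintegral_mono_set fun z hz => ?_) (hs3 (R + 1))
    have h1 : H136.K9.Fq hA z ∈ thickening 1 (ball (0 : Cm q) R) := hz
    obtain ⟨x, hx, hd⟩ := mem_thickening_iff.1 h1
    have h2 : dist (H136.K9.Fq hA z) 0 < R + 1 := by
      have h3 : dist x 0 < R := hx
      linarith [dist_triangle (H136.K9.Fq hA z) x 0]
    rw [dist_zero_right] at h2
    exact h2.le
  · have h1 := hs1 (H885.mk (H224.ker hA) y) (H136.K9.rv_quo hG hA hy)
    refine le_trans (le_of_eq ?_) h1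
    show ENNReal.ofReal (‖h y‖ ^ 2) = nrm n p F h y
    rw [nrm, if_pos (hy y rfl)]

end Vale.Agent.P284.H501.K
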