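import Vale.Agent.P284.H501.K.Tube

/-!
# P284 (helper501), K11: the bump functions and their derivatives along a path
-/

open scoped Manifold ContDiff Topology Pointwise ComplexConjugate ComplexOrder Matrix ENNReal
open Filter Set Metric MeasureTheory

noncomputable section

set_option linter.unusedSectionVars false

namespace Vale.Agent.P284.H501.K

open Vale.Agent.P272.K Vale.Agent.P284.H248 Vale.Agent.P284.H894 Vale.Agent.P284.H894.G
  Vale.Agent.P284.H894.V Vale.Agent.P284.H894.W Vale.Agent.P284.H639.V Vale.Agent.P284.H66.S7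
  Vale.Agent.P284.H650 Vale.Agent.P284.H551

/-- the bump function -/
def b0 (q : ℕ) : ContDiffBump (0 : Cm q) where
  rIn := 1 / 2
  rOut := 1
  rIn_pos := by norm_num
  rIn_lt_rOut := by norm_num

variable {q : ℕ}

/-- the bump function at `a` with radius `ρ` -/
def ph (a : Cm q) (ρ : ℝ) (x : Cm q) : ℝ := (ρ ^ (2 * q))⁻¹ * b0 q (ρ⁻¹ • (x - a))

theorem ph_smooth (a : Cm q) (ρ : ℝ) : ContDiff ℝ ∞ (ph a ρ) := by
  unfold ph
  have h : ContDiff ℝ ∞ fun x : Cm q => ρ⁻¹ • (x - a) := by fun_prop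
  exact contDiff_const.mul ((b0 q).contDiff.comp h)

theorem ph_nonneg (a : Cm q) {ρ : ℝ} (x : Cm q) : 0 ≤ ph a ρ x := by
  unfold ph
  refine mul_nonneg (inv_nonneg.2 ?_) (b0 q).nonneg
  rw [pow_mul]
  positivity

theorem ph_zero {a : Cm q} {ρ : ℝ} (hρ : 0 < ρ) {x : Cm q} (hx : x ∉ ball a ρ) : ph a ρ x = 0 := by
  unfold ph
  have h1 : b0 q (ρ⁻¹ • (x - a)) = 0 := by
    by_contra h
    have h2 : ρ⁻¹ • (x - a) ∈ Function.support (b0 q) := h
    rw [(b0 q).support_eq, mem_ball_zero_iff, norm_smul, norm_inv, Real.norm_of_nonneg hρ.le] at h2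
    refine hx (mem_ball_iff_norm.2 ?_)
    have h3 : ρ⁻¹ * ‖x - a‖ < 1 := h2
    rwa [inv_mul_lt_iff₀ hρ, mul_one] at h3
  rw [h1, mul_zero]

theorem ph_tsupport {a : Cm q} {ρ : ℝ} (hρ : 0 < ρ) : tsupport (ph a ρ) ⊆ closedBall a ρ := by
  refine closure_minimal (fun x hx => ?_) isClosed_closedBall
  by_contra h
  exact hx (ph_zero hρ fun h2 => h (ball_subset_closedBall h2))

/-- the derivative of the bump function along the path -/
def phD (A : Cm q) (L : ℝ) (a : Cm q) (ρ : ℝ) (x : Cm q) : ℝ :=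
  -(2 * q * L / ρ) * ph a ρ x - (ρ ^ (2 * q))⁻¹ *
    fderiv ℝ (b0 q) (ρ⁻¹ • (x - a)) (ρ⁻¹ • (L • (ρ⁻¹ • (x - a)) + A))

theorem ph_path (a₀ A : Cm q) (ρ₀ L : ℝ) (x : Cm q) {τ : ℝ} (hρ : ρ₀ + τ * L ≠ 0) :
    HasDerivAt (fun τ => ph (a₀ + τ • A) (ρ₀ + τ * L) x)
      (phD A L (a₀ + τ • A) (ρ₀ + τ * L) x) τ := by
  have h1 : HasDerivAt (fun τ : ℝ => ρ₀ + τ * L) L τ := by
    simpa using ((hasDerivAt_id τ).mul_const L).const_add ρ₀
  have h2 : HasDerivAt (fun τ : ℝ => x - (a₀ + τ • A)) (-A) τ := by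
    have := (((hasDerivAt_id τ).smul_const A).const_add a₀).const_sub x
    simpa using this
  have h3 : HasDerivAt (fun τ : ℝ => (ρ₀ + τ * L)⁻¹) (-L / (ρ₀ + τ * L) ^ 2) τ := h1.inv hρ
  have h4 := h3.smul h2
  have h5 : HasFDerivAt (b0 q) (fderiv ℝ (b0 q) ((ρ₀ + τ * L)⁻¹ • (x - (a₀ + τ • A))))
      ((ρ₀ + τ * L)⁻¹ • (x - (a₀ + τ • A))) :=
    ((b0 q).contDiff (n := 1)).differentiable (by simp) _ |>.hasFDerivAt
  have h6 := h5.comp_hasDerivAt τ h4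
  have h7 : HasDerivAt (fun τ : ℝ => ((ρ₀ + τ * L) ^ (2 * q))⁻¹)
      (-((((2 * q : ℕ) : ℝ) * (ρ₀ + τ * L) ^ (2 * q - 1) * L)) / ((ρ₀ + τ * L) ^ (2 * q)) ^ 2) τ :=
    (h1.pow (2 * q)).inv (pow_ne_zero _ hρ)
  have h8 := h7.mul h6
  refine h8.congr_deriv ?_
  set ρ := ρ₀ + τ * L with hρd
  set a := a₀ + τ • A with had
  set u := ρ⁻¹ • (x - a) with hu
  have e1 : ρ⁻¹ • -A + (-L / ρ ^ 2) • (x - a) = -(ρ⁻¹ • (L • u + A)) := by
    rw [hu]
    simp only [smul_add, smul_smul, smul_neg, neg_add]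
    rw [add_comm]
    congr 1
    rw [← neg_smul]
    congr 1
    field_simp
  show _ * b0 q u + _ * (fderiv ℝ (b0 q) u) (ρ⁻¹ • -A + (-L / ρ ^ 2) • (x - a)) = phD A L a ρ x
  rw [e1, map_neg, phD, ph, ← hu]
  rcases Nat.eq_zero_or_pos q with hq0 | hq0
  · have h0 : 2 * q = 0 := by omega
    simp only [h0]
    have h0' : (q : ℝ) = 0 := by exact_mod_cast hq0
    simp [h0']
  · have e2 : ρ ^ (2 * q) = ρ ^ (2 * q - 1) * ρ := by
      rw [← pow_succ]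
      congr 1
      omega
    have h9 : ρ ^ (2 * q - 1) ≠ 0 := pow_ne_zero _ hρ
    rw [e2]
    push_cast
    field_simp
    ring

theorem fderiv_ph (a : Cm q) (ρ : ℝ) (x v : Cm q) :
    fderiv ℝ (ph a ρ) x v = (ρ ^ (2 * q))⁻¹ * fderiv ℝ (b0 q) (ρ⁻¹ • (x - a)) (ρ⁻¹ • v) := by
  have h5 : HasFDerivAt (b0 q) (fderiv ℝ (b0 q) (ρ⁻¹ • (x - a))) (ρ⁻¹ • (x - a)) :=
    ((b0 q).contDiff (n := 1)).differentiable (by simp) _ |>.hasFDerivAt
  have h1 : HasFDerivAt (fun x : Cm q => ρ⁻¹ • (x - a)) (ρ⁻¹ • ContinuousLinearMap.id ℝ (Cm q)) x :=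
    ((hasFDerivAt_id x).sub_const a).const_smul ρ⁻¹
  have h2 := (h5.comp x h1).const_mul ((ρ ^ (2 * q))⁻¹)
  have h3 : ph a ρ = fun x => (ρ ^ (2 * q))⁻¹ * (b0 q ∘ fun x : Cm q => ρ⁻¹ • (x - a)) x := rfl
  rw [h3, h2.fderiv]
  simp

theorem fderiv_real (f : Cm q → ℝ) {x : Cm q} (hf : DifferentiableAt ℝ f x) (v : Cm q) :
    fderiv ℝ f x v = ∑ j, 2 * (dz j (fun s => (f s : ℂ)) x * v j).re := by
  have h1 : fderiv ℝ (fun s => (f s : ℂ)) x v = ((fderiv ℝ f x v : ℝ) : ℂ) := by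
    have := (Complex.ofRealCLM.hasFDerivAt (x := f x)).comp x hf.hasFDerivAt
    rw [show (fun s => (f s : ℂ)) = Complex.ofRealCLM ∘ f from rfl, this.fderiv]
    simp
  have h2 := Vale.Agent.P272.K.fderiv_eq (fun s => (f s : ℂ)) x v
  rw [h1] at h2
  have h3 := congrArg Complex.re h2
  rw [Complex.ofReal_re] at h3
  rw [h3, Complex.re_sum]
  refine Finset.sum_congr rfl fun j _ => ?_
  rw [C2.dzb_real j hf, Complex.add_re]
  have h4 : cj (v j) = (starRingEnd ℂ) (v j) := rfl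
  rw [h4, ← map_mul, Complex.conj_re]
  ring

/-- the field times the bump function -/
def phV (A : Cm q) (L : ℝ) (a : Cm q) (ρ : ℝ) (j : Fin q) (s : Cm q) : ℂ :=
  ((ph a ρ s : ℝ) : ℂ) * (((L * ρ⁻¹ : ℝ) : ℂ) * (s j - a j) + A j)

theorem phV_smooth (A : Cm q) (L : ℝ) (a : Cm q) (ρ : ℝ) (j : Fin q) :
    ContDiff ℝ ∞ (phV A L a ρ j) := by
  unfold phV
  have h1 : ContDiff ℝ ∞ fun s : Cm q => ((ph a ρ s : ℝ) : ℂ) :=
    Complex.ofRealCLM.contDiff.comp (ph_smooth a ρ)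
  have h2 : ContDiff ℝ ∞ fun s : Cm q => s j := contDiff_apply ℝ ℂ j
  exact h1.mul ((contDiff_const.mul (h2.sub contDiff_const)).add contDiff_const)

theorem phV_tsupport (A : Cm q) (L : ℝ) {a : Cm q} {ρ : ℝ} (hρ : 0 < ρ) (j : Fin q) :
    tsupport (phV A L a ρ j) ⊆ closedBall a ρ := by
  refine closure_minimal (fun x hx => ?_) isClosed_closedBall
  by_contra h
  refine hx ?_
  rw [phV, ph_zero hρ fun h2 => h (ball_subset_closedBall h2)]
  simp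

theorem dz_phV (A : Cm q) (L : ℝ) (a : Cm q) (ρ : ℝ) (j : Fin q) (x : Cm q) :
    dz j (phV A L a ρ j) x = dz j (fun s => ((ph a ρ s : ℝ) : ℂ)) x *
      (L • (ρ⁻¹ • (x - a)) + A) j + ((ph a ρ x * (L / ρ) : ℝ) : ℂ) := by
  have h1 : ContDiff ℝ ∞ fun s : Cm q => ((ph a ρ s : ℝ) : ℂ) :=
    Complex.ofRealCLM.contDiff.comp (ph_smooth a ρ)
  have hd1 : DifferentiableAt ℝ (fun s : Cm q => ((ph a ρ s : ℝ) : ℂ)) x :=
    h1.contDiffAt.differentiableAt (by simp)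
  have hj : HasFDerivAt (𝕜 := ℂ) (fun s : Cm q => s j)
      (ContinuousLinearMap.proj (R := ℂ) (φ := fun _ : Fin q => ℂ) j) x :=
    (ContinuousLinearMap.proj (R := ℂ) (φ := fun _ : Fin q => ℂ) j).hasFDerivAt
  have h2 : HasFDerivAt (𝕜 := ℂ) (fun s : Cm q => ((L * ρ⁻¹ : ℝ) : ℂ) * (s j - a j) + A j)
      (((L * ρ⁻¹ : ℝ) : ℂ) • (ContinuousLinearMap.proj (R := ℂ) (φ := fun _ : Fin q => ℂ) j)) x :=
    ((hj.sub_const (a j)).const_mul _).add_const _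
  have hd2 : DifferentiableAt ℝ (fun s : Cm q => ((L * ρ⁻¹ : ℝ) : ℂ) * (s j - a j) + A j) x :=
    h2.differentiableAt.restrictScalars ℝ
  have h3 := C2.dz_mul j hd1 hd2
  have h4 : phV A L a ρ j = fun y => ((ph a ρ y : ℝ) : ℂ) *
      (((L * ρ⁻¹ : ℝ) : ℂ) * (y j - a j) + A j) := rfl
  rw [h4, h3, Vale.Agent.P272.K.dz_of_holo h2.differentiableAt, h2.fderiv]
  simp only [_root_.smul_apply, ContinuousLinearMap.proj_apply, Pi.single_eq_same,
    Pi.add_apply, Pi.smul_apply, Pi.sub_apply, smul_eq_mul, mul_one, Complex.real_smul]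
  push_cast
  ring

/-- the derivative along the path is a divergence -/
theorem phD_eq (A : Cm q) (L : ℝ) (a : Cm q) (ρ : ℝ) (x : Cm q) :
    phD A L a ρ x = -∑ j, 2 * (dz j (phV A L a ρ j) x).re := by
  have h1 := fderiv_real (ph a ρ) (x := x)
    ((ph_smooth a ρ).contDiffAt.differentiableAt (by simp)) (L • (ρ⁻¹ • (x - a)) + A)
  rw [fderiv_ph] at h1
  simp only [dz_phV, Complex.add_re, Complex.ofReal_re, mul_add, Finset.sum_add_distrib]
  rw [← h1, Finset.sum_const, Finset.card_univ, Fintype.card_fin, nsmul_eq_mul, phD]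
  ring

end Vale.Agent.P284.H501.K
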