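import Vale.Agent.P284.H501.K.Stk

/-!
# P284 (helper501), K11: upper bound of the Gram determinant by the minors
-/

open scoped Manifold ContDiff Topology Pointwise ComplexConjugate ComplexOrder Matrix
open Filter Set Metric MeasureTheory

noncomputable section

namespace Vale.Agent.P284.H501.K

open Vale.Agent.P272.K Vale.Agent.P284.H248 Vale.Agent.P284.H894
  Vale.Agent.P284.H894.V Vale.Agent.P284.H639.V Vale.Agent.P284.H66.S7 Vale.Agent.P284.H650

variable {n q : ℕ}

/-- the sum of the squares of the minors -/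
def mn (J : Matrix (Fin q) (Fin n) ℂ) : ℝ := ∑ L : Fin q → Fin n, ‖(J.submatrix id L).det‖ ^ 2

theorem mn_nonneg (J : Matrix (Fin q) (Fin n) ℂ) : 0 ≤ mn J :=
  Finset.sum_nonneg fun _ _ => by positivity

theorem gram_up (J : Matrix (Fin q) (Fin n) ℂ) {w : Matrix (Fin n) (Fin n) ℂ} (hw : w.PosDef) :
    (J.map (starRingEnd ℂ) * w⁻¹ * J.transpose).det.re ≤ (w⁻¹).trace.re ^ q * mn J := by
  have hstar : ∃ Q : Matrix (Fin n) (Fin n) ℂ, w = Q.conjTranspose * Q := by
    open scoped MatrixOrder in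
    exact CStarAlgebra.nonneg_iff_eq_star_mul_self.mp hw.posSemidef.nonneg
  obtain ⟨Q, hQ⟩ := hstar
  set B : Matrix (Fin q) (Fin n) ℂ := J.map (starRingEnd ℂ) * Q⁻¹ with hB
  have hJc : (J.map (starRingEnd ℂ)).conjTranspose = J.transpose := by
    ext i j
    simp [Matrix.conjTranspose_apply]
  have hBB : B * B.conjTranspose = J.map (starRingEnd ℂ) * w⁻¹ * J.transpose := by
    rw [hB, Matrix.conjTranspose_mul, hJc, hQ, Matrix.mul_inv_rev, Matrix.conjTranspose_nonsing_inv]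
    simp only [Matrix.mul_assoc]
  have htr : (w⁻¹).trace.re = ∑ i, ∑ l, ‖Q⁻¹ i l‖ ^ 2 := by
    rw [hQ, Matrix.mul_inv_rev, ← Matrix.conjTranspose_nonsing_inv, Matrix.trace, Complex.re_sum]
    refine Finset.sum_congr rfl fun i _ => ?_
    rw [Matrix.diag_apply, Matrix.mul_apply, Complex.re_sum]
    refine Finset.sum_congr rfl fun l _ => ?_
    rw [Matrix.conjTranspose_apply]
    show (Q⁻¹ i l * conj (Q⁻¹ i l)).re = _
    rw [Complex.mul_conj, Complex.ofReal_re, Complex.normSq_eq_norm_sq]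
  set T : ℝ := ∑ i, ∑ l, ‖Q⁻¹ i l‖ ^ 2 with hT
  have h1 := H335.sum_norm_sq B
  have h2 : ∀ L : Fin q → Fin n, ‖(B.submatrix id L).det‖ ^ 2 ≤
      mn J * ∑ M : Fin q → Fin n, ∏ c, ‖Q⁻¹ (M c) (L c)‖ ^ 2 := by
    intro L
    have e : B.submatrix id L = J.map (starRingEnd ℂ) * Q⁻¹.submatrix id L := by
      ext a c
      simp [hB, Matrix.mul_apply]
    rw [e, ← H335.det_mul_sum]
    have e2 : ∀ M : Fin q → Fin n, ‖((J.map (starRingEnd ℂ)).submatrix id M).det‖ =
        ‖(J.submatrix id M).det‖ := by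
      intro M
      have : (J.map (starRingEnd ℂ)).submatrix id M = (J.submatrix id M).map (starRingEnd ℂ) := rfl
      have h9 : ((J.submatrix id M).map (starRingEnd ℂ)).det = conj (J.submatrix id M).det :=
        ((starRingEnd ℂ).map_det (J.submatrix id M)).symm
      rw [this, h9]
      exact Complex.norm_conj _
    calc ‖∑ M : Fin q → Fin n, ((J.map (starRingEnd ℂ)).submatrix id M).det *
          ∏ c, Q⁻¹.submatrix id L (M c) c‖ ^ 2
        ≤ (∑ M : Fin q → Fin n, ‖(J.submatrix id M).det‖ * ‖∏ c, Q⁻¹ (M c) (L c)‖) ^ 2 := by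
          gcongr
          refine (norm_sum_le _ _).trans (le_of_eq ?_)
          refine Finset.sum_congr rfl fun M _ => ?_
          rw [norm_mul, e2]
          rfl
      _ ≤ (∑ M : Fin q → Fin n, ‖(J.submatrix id M).det‖ ^ 2) *
          ∑ M : Fin q → Fin n, ‖∏ c, Q⁻¹ (M c) (L c)‖ ^ 2 := Finset.sum_mul_sq_le_sq_mul_sq _ _ _
      _ = _ := by
          rw [mn]
          congr 1
          refine Finset.sum_congr rfl fun M _ => ?_
          rw [norm_prod, Finset.prod_pow]
  have h3 : ∑ L : Fin q → Fin n, ∑ M : Fin q → Fin n, ∏ c, ‖Q⁻¹ (M c) (L c)‖ ^ 2 = T ^ q := by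
    have e3 : T ^ q = ∏ _c : Fin q, ∑ l, ∑ i, ‖Q⁻¹ i l‖ ^ 2 := by
      rw [Finset.prod_const, Finset.card_univ, Fintype.card_fin, hT, Finset.sum_comm]
    rw [e3, Finset.prod_univ_sum, Fintype.piFinset_univ]
    refine Finset.sum_congr rfl fun L _ => ?_
    rw [Finset.prod_univ_sum, Fintype.piFinset_univ]
  have h4 : (q.factorial : ℝ) * (B * B.conjTranspose).det.re ≤ mn J * T ^ q := by
    rw [← h1, ← h3, Finset.mul_sum]
    exact Finset.sum_le_sum fun L _ => h2 L
  have h5 : 0 ≤ (B * B.conjTranspose).det.re := by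
    rw [hBB]
    exact gram_nonneg hw J
  have h6 : (1 : ℝ) ≤ q.factorial := by exact_mod_cast q.factorial_pos
  rw [← hBB, htr, mul_comm]
  nlinarith

theorem dJ_le (J : Matrix (Fin q) (Fin n) ℂ) {w : Matrix (Fin n) (Fin n) ℂ} (hw : w.PosDef)
    (hq : q ≤ n) : dJ w J ≤ ((n - q).factorial * w.det.re * (w⁻¹).trace.re ^ q) * mn J := by
  rw [dJ_eq hw J (s := n - q) (by omega), mul_assoc _ _ (mn J)]
  refine mul_le_mul_of_nonneg_left (gram_up J hw) ?_
  exact mul_nonneg (by positivity) (det_re_pos hw).le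

end Vale.Agent.P284.H501.K
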