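import Vale.Agent.P284.H501.K.Bump

/-!
# P284 (helper501), K11: the volume of a tube does not depend on the bump function
-/

open scoped Manifold ContDiff Topology Pointwise ComplexConjugate ComplexOrder Matrix ENNReal
open Filter Set Metric MeasureTheory

noncomputable section

set_option linter.unusedSectionVars false

namespace Vale.Agent.P284.H501.K

open Vale.Agent.P272.K Vale.Agent.P284.H248 Vale.Agent.P284.H894 Vale.Agent.P284.H894.G
  Vale.Agent.P284.H894.V Vale.Agent.P284.H894.W Vale.Agent.P284.H639.V Vale.Agent.P284.H66.S7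
  Vale.Agent.P284.H650 Vale.Agent.P284.H551

section
variable {q : ℕ}

theorem phD_cont (A : Cm q) (L : ℝ) (a : Cm q) (ρ : ℝ) : Continuous (phD A L a ρ) := by
  have h1 : phD A L a ρ = fun x => -∑ j, 2 * (dz j (phV A L a ρ j) x).re := by
    funext x
    exact phD_eq A L a ρ x
  rw [h1]
  refine (continuous_finset_sum _ fun j _ => continuous_const.mul
    (Complex.continuous_re.comp (dz_cont (phV_smooth A L a ρ j) j))).neg

theorem ph_contOn {Z : Type} [TopologicalSpace Z] {S : Set Z} {a x : Z → Cm q} {ρ : Z → ℝ}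
    (ha : ContinuousOn a S) (hρ : ContinuousOn ρ S) (hx : ContinuousOn x S)
    (h0 : ∀ z ∈ S, ρ z ≠ 0) : ContinuousOn (fun z => ph (a z) (ρ z) (x z)) S := by
  have hi : ContinuousOn (fun z => (ρ z)⁻¹) S := hρ.inv₀ h0
  have hp : ContinuousOn (fun z => ((ρ z) ^ (2 * q))⁻¹) S :=
    (hρ.pow _).inv₀ fun z hz => pow_ne_zero _ (h0 z hz)
  have hu : ContinuousOn (fun z => (ρ z)⁻¹ • (x z - a z)) S := hi.smul (hx.sub ha)
  exact hp.mul ((b0 q).continuous.comp_continuousOn hu)

theorem fb_contOn {Z : Type} [TopologicalSpace Z] {S : Set Z} {u v : Z → Cm q}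
    (hu : ContinuousOn u S) (hv : ContinuousOn v S) :
    ContinuousOn (fun z => fderiv ℝ (b0 q) (u z) (v z)) S := by
  have h1 : Continuous (fderiv ℝ (b0 q)) := ((b0 q).contDiff (n := 1)).continuous_fderiv (by simp)
  exact (h1.comp_continuousOn hu).clm_apply hv

theorem phD_contOn {Z : Type} [TopologicalSpace Z] {S : Set Z} (A : Cm q) (L : ℝ)
    {a x : Z → Cm q} {ρ : Z → ℝ}
    (ha : ContinuousOn a S) (hρ : ContinuousOn ρ S) (hx : ContinuousOn x S)
    (h0 : ∀ z ∈ S, ρ z ≠ 0) : ContinuousOn (fun z => phD A L (a z) (ρ z) (x z)) S := by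
  have hi : ContinuousOn (fun z => (ρ z)⁻¹) S := hρ.inv₀ h0
  have hp : ContinuousOn (fun z => ((ρ z) ^ (2 * q))⁻¹) S :=
    (hρ.pow _).inv₀ fun z hz => pow_ne_zero _ (h0 z hz)
  have hu : ContinuousOn (fun z => (ρ z)⁻¹ • (x z - a z)) S := hi.smul (hx.sub ha)
  have hLu : ContinuousOn (fun z => L • ((ρ z)⁻¹ • (x z - a z)) + A) S :=
    (hu.const_smul L).add continuousOn_const
  have hv : ContinuousOn (fun z => (ρ z)⁻¹ • (L • ((ρ z)⁻¹ • (x z - a z)) + A)) S := hi.smul hLu
  have h2 : ContinuousOn (fun z => -(2 * q * L / ρ z)) S := (continuousOn_const.div hρ h0).neg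
  exact (h2.mul (ph_contOn ha hρ hx h0)).sub (hp.mul (fb_contOn hu hv))

theorem phD_cont2 (a₀ A : Cm q) (ρ₀ L : ℝ) :
    ContinuousOn (fun z : ℝ × Cm q => phD A L (a₀ + z.1 • A) (ρ₀ + z.1 * L) z.2)
      {z | ρ₀ + z.1 * L ≠ 0} := by
  refine phD_contOn A L ?_ ?_ continuousOn_snd fun z hz => hz
  · exact (continuous_const.add (continuous_fst.smul continuous_const)).continuousOn
  · exact (continuous_const.add (continuous_fst.mul continuous_const)).continuousOn

end

section
variable {n q : ℕ} {Γ X E : Type} [Group Γ] [TopologicalSpace X] [ChartedSpace (Cm n) X]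
  [TopologicalSpace E] [MulAction Γ E] {p : E → X} {C : Coc n Γ}
  {w : Chart n X → Cm n → Matrix (Fin n) (Fin n) ℂ} {B : ℝ}
  {P : PU C} {K : KM C} {D : ECoc p C} {F : E → Cm q}
  [MeasurableSpace E] [BorelSpace E] (hG : IsGalois Γ p) {t : Cm q} {r : ℝ} {O : Set E}

include hG in
/-- the integral of the divergence vanishes -/
theorem int_phD (hq : q ≤ n) (hF : HolB p w F B) (hFc : Continuous F) {c : Γ → Cm q}
    (hc : ∀ (g : Γ) y, F (g • y) = F y + c g)
    (hfin : ∀ R : ℝ, {g : Γ | ‖c g‖ ≤ R}.Finite) (T : Tub F t r O) (A : Cm q) (L : ℝ) {a : Cm q}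
    {ρ : ℝ} (hρ : 0 < ρ) (ha : dist a t + ρ < r) :
    ∫ y in O, phD A L a ρ (F y) ∂(mu P K D F) = 0 := by
  have h1 : ∀ j, ∫ y in O, (dz j (phV A L a ρ j) (F y)).re ∂(mu P K D F) = 0 := fun j =>
    klc (P := P) (K := K) (D := D) hG hq hF hFc hc hfin T (phV_smooth A L a ρ j)
      ((phV_tsupport A L hρ j).trans fun x hx => by
        rw [mem_closedBall] at hx
        rw [mem_ball]
        linarith [dist_triangle x a t]) j
  simp only [phD_eq]
  rw [integral_neg, integral_finsetSum, Finset.sum_eq_zero, neg_zero]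
  · intro j _
    rw [integral_const_mul, h1, mul_zero]
  · intro j _
    exact tube_int (P := P) (K := K) (D := D) hG hF hFc hc hfin T
      (f := fun s => 2 * (dz j (phV A L a ρ j) s).re) (continuous_const.mul
      (Complex.continuous_re.comp (dz_cont (phV_smooth A L a ρ j) j)))

include hG in
/-- **the volume does not depend on the bump function** -/
theorem move (hq : q ≤ n) (hF : HolB p w F B) (hFc : Continuous F) {c : Γ → Cm q}
    (hc : ∀ (g : Γ) y, F (g • y) = F y + c g)
    (hfin : ∀ R : ℝ, {g : Γ | ‖c g‖ ≤ R}.Finite) (T : Tub F t r O) {a₀ a₁ : Cm q}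
    {ρ₀ ρ₁ : ℝ} (h0 : 0 < ρ₀) (h1 : 0 < ρ₁) (ha0 : dist a₀ t + ρ₀ < r) (ha1 : dist a₁ t + ρ₁ < r) :
    ∫ y in O, ph a₀ ρ₀ (F y) ∂(mu P K D F) = ∫ y in O, ph a₁ ρ₁ (F y) ∂(mu P K D F) := by
  set A := a₁ - a₀ with hA
  set L := ρ₁ - ρ₀ with hL
  set U : Set ℝ := {τ | 0 < ρ₀ + τ * L ∧ ‖a₀ + τ • A - t‖ + (ρ₀ + τ * L) < r} with hU
  have hUo : IsOpen U := by
    have c1 : Continuous fun τ : ℝ => ρ₀ + τ * L := by fun_prop
    have c2 : Continuous fun τ : ℝ => ‖a₀ + τ • A - t‖ + (ρ₀ + τ * L) := by fun_prop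
    exact (isOpen_lt continuous_const c1).inter (isOpen_lt c2 continuous_const)
  have hUc : Convex ℝ U := by
    intro x hx y hy α β hα hβ hαβ
    have e1 : ρ₀ + (α • x + β • y) * L = α * (ρ₀ + x * L) + β * (ρ₀ + y * L) := by
      simp only [smul_eq_mul]
      linear_combination (-ρ₀) * hαβ
    have e2 : a₀ + (α • x + β • y) • A - t = α • (a₀ + x • A - t) + β • (a₀ + y • A - t) := by
      have h3 : β = 1 - α := by linarith
      subst h3
      simp only [smul_eq_mul]
      module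
    have h4 : ‖a₀ + (α • x + β • y) • A - t‖ ≤ α * ‖a₀ + x • A - t‖ + β * ‖a₀ + y • A - t‖ := by
      rw [e2]
      refine (norm_add_le _ _).trans ?_
      rw [norm_smul, norm_smul, Real.norm_of_nonneg hα, Real.norm_of_nonneg hβ]
    refine ⟨?_, ?_⟩
    · rw [e1]
      rcases hα.eq_or_lt with h5 | h5
      · have : β = 1 := by linarith
        rw [← h5, this]
        linarith [hy.1]
      · have h6 := mul_pos h5 hx.1
        have h7 := mul_nonneg hβ hy.1.le
        linarith
    · rw [e1]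
      have h8 : α * ‖a₀ + x • A - t‖ + β * ‖a₀ + y • A - t‖ +
          (α * (ρ₀ + x * L) + β * (ρ₀ + y * L)) < r := by
        rcases hα.eq_or_lt with h5 | h5
        · have : β = 1 := by linarith
          rw [← h5, this]
          linarith [hy.2]
        · have h6 := mul_lt_mul_of_pos_left hx.2 h5
          have h7 := mul_le_mul_of_nonneg_left hy.2.le hβ
          have h9 : α * r + β * r = r := by rw [← add_mul, hαβ, one_mul]
          linarith
      linarith
  have h0U : (0 : ℝ) ∈ U := by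
    refine ⟨by simpa using h0, ?_⟩
    rw [dist_eq_norm] at ha0
    simpa using ha0
  have h1U : (1 : ℝ) ∈ U := by
    have e1 : ρ₀ + 1 * L = ρ₁ := by rw [hL]; ring
    have e2 : a₀ + (1 : ℝ) • A = a₁ := by rw [hA, one_smul]; abel
    refine ⟨by rw [e1]; exact h1, ?_⟩
    rw [e1, e2, ← dist_eq_norm]
    exact ha1
  have hder : ∀ τ ∈ U, HasDerivAt
      (fun τ => ∫ y in O, ph (a₀ + τ • A) (ρ₀ + τ * L) (F y) ∂(mu P K D F)) 0 τ := by
    intro τ hτ
    obtain ⟨ε, hε, hball⟩ := Metric.isOpen_iff.1 hUo τ hτ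
    have hcpt : IsCompact (closedBall τ (ε / 2) ×ˢ closedBall t r) :=
      (isCompact_closedBall _ _).prod (isCompact_closedBall _ _)
    have hsub : closedBall τ (ε / 2) ×ˢ closedBall t r ⊆
        {z : ℝ × Cm q | ρ₀ + z.1 * L ≠ 0} := by
      rintro ⟨τ', x⟩ ⟨h2, -⟩
      have h3 : τ' ∈ U := hball (by
        rw [mem_ball]
        have : dist τ' τ ≤ ε / 2 := h2
        linarith)
      exact h3.1.ne'
    obtain ⟨M, hM⟩ := hcpt.exists_bound_of_continuousOn ((phD_cont2 a₀ A ρ₀ L).mono hsub)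
    have hfinO : (mu P K D F).restrict O univ < ⊤ := by
      have hsub : O ⊆ {y | ‖F y‖ ≤ ‖t‖ + r} := by
        intro y hy
        have h2 := mem_ball_iff_norm.1 (T.sub _ hy)
        show ‖F y‖ ≤ _
        calc ‖F y‖ = ‖t + (F y - t)‖ := by congr 1; abel
          _ ≤ ‖t‖ + ‖F y - t‖ := norm_add_le _ _
          _ ≤ _ := by linarith
      rw [Measure.restrict_apply MeasurableSet.univ, univ_inter]
      exact (measure_mono hsub).trans_lt (mu_fin hG hF hFc hc hfin _)
    have hfm : IsFiniteMeasure ((mu P K D F).restrict O) := ⟨hfinO⟩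
    have key := hasDerivAt_integral_of_dominated_loc_of_deriv_le
      (μ := (mu P K D F).restrict O) (F := fun τ y => ph (a₀ + τ • A) (ρ₀ + τ * L) (F y))
      (F' := fun τ y => phD A L (a₀ + τ • A) (ρ₀ + τ * L) (F y)) (x₀ := τ)
      (s := ball τ (ε / 2)) (bound := fun _ => M) (ball_mem_nhds τ (by positivity))
      (Eventually.of_forall fun τ' =>
        ((ph_smooth _ _).continuous.comp hFc).aestronglyMeasurable)
      (tube_int (P := P) (K := K) (D := D) hG hF hFc hc hfin T (ph_smooth _ _).continuous)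
      ((phD_cont _ _ _ _).comp hFc).aestronglyMeasurable
      ((ae_restrict_iff' T.opn.measurableSet).2 (Eventually.of_forall fun y hy τ' hτ' =>
        hM (τ', F y) ⟨ball_subset_closedBall hτ', ball_subset_closedBall (T.sub y hy)⟩))
      (integrable_const M)
      (Eventually.of_forall fun y τ' hτ' => ph_path a₀ A ρ₀ L (F y) (by
        have h3 : τ' ∈ U := hball (ball_subset_ball (by linarith) hτ')
        exact h3.1.ne'))
    have h5 := key.2
    rwa [int_phD hG hq hF hFc hc hfin T A L hτ.1 (by rw [dist_eq_norm]; exact hτ.2)] at h5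
  have h6 := hUo.is_const_of_deriv_eq_zero hUc.isPreconnected
    (fun τ hτ => (hder τ hτ).differentiableAt.differentiableWithinAt)
    (fun τ hτ => (hder τ hτ).deriv) h0U h1U
  have e1 : ρ₀ + 1 * L = ρ₁ := by rw [hL]; ring
  have e2 : a₀ + (1 : ℝ) • A = a₁ := by rw [hA, one_smul]; abel
  simpa only [zero_smul, zero_mul, add_zero, e1, e2] using h6

end

end Vale.Agent.P284.H501.K
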