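import Vale.Agent.P284.H501.K.Gram
import Vale.Agent.P284.H551.EMap
import Vale.Agent.P284.H366.V.Spec

/-!
# P284 (helper501), K11: the measure `|dF_1 ∧ … ∧ dF_q|² dV` on the covering
-/

open scoped Manifold ContDiff Topology Pointwise ComplexConjugate ComplexOrder Matrix ENNReal
open Filter Set Metric MeasureTheory

noncomputable section

set_option linter.unusedSectionVars false

namespace Vale.Agent.P284.H501.K

open Vale.Agent.P272.K Vale.Agent.P284.H248 Vale.Agent.P284.H894 Vale.Agent.P284.H894.G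
  Vale.Agent.P284.H894.V Vale.Agent.P284.H894.W Vale.Agent.P284.H639.V Vale.Agent.P284.H66.S7
  Vale.Agent.P284.H650 Vale.Agent.P284.H551

section
variable {n q : ℕ} {Γ X E : Type} [Group Γ] [TopologicalSpace X] [ChartedSpace (Cm n) X]
  [TopologicalSpace E] [MulAction Γ E] {p : E → X} {C : Coc n Γ}
  {w : Chart n X → Cm n → Matrix (Fin n) (Fin n) ℂ} {B : ℝ}
  (P : PU C) (K : KM C) (D : ECoc p C) (F : E → Cm q)

/-- the density on the pieces -/
def dE (a : C.I) (z : Cm n) : ℝ := P.χ a a z * dJ (K.w a z) (JF (Fc D F 1 a) z)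

variable [MeasurableSpace E]

/-- the measure on one sheet -/
def mu1 (i : Γ × C.I) : Measure E :=
  ((volume.restrict (C.V i.2)).withDensity fun z => ENNReal.ofReal (dE P K D F i.2 z)).map
    fun z => i.1 • D.σ i.2 z

/-- the measure `|dF_1 ∧ … ∧ dF_q|² dV` -/
def mu : Measure E := Measure.sum fun i : Γ × C.I => mu1 P K D F i

variable {P K D F}
variable (hG : IsGalois Γ p)

include hG in
theorem holF_Fc (hF : HolB p w F B) : HolF C (Fc D F) :=
  ⟨(tMap hG D hF).holo, (tMap hG D hF).compat⟩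

theorem JF_Fc {c : Γ → Cm q} (hc : ∀ (g : Γ) y, F (g • y) = F y + c g) (γ : Γ) (a : C.I)
    (z : Cm n) : JF (Fc D F γ a) z = JF (Fc D F 1 a) z := by
  have h1 : Fc D F γ a = fun z => Fc D F 1 a z + (c γ - c 1) := by
    funext z
    simp only [Fc, hc γ, hc 1]
    abel
  ext i l
  rw [JF, JF, Matrix.of_apply, Matrix.of_apply, h1]
  have e : ∀ f : Cm n → ℂ, ∀ k : ℂ, dz l (fun y => f y + k) z = dz l f z := by
    intro f k
    unfold Vale.Agent.P272.K.dz
    rw [fderiv_add_const]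
  exact e (fun y => Fc D F 1 a y i) _

include hG in
/-- continuity of the density -/
theorem dJ_cont (hF : HolB p w F B) (γ : Γ) {a : C.I} {z : Cm n} (hz : z ∈ C.Ω a) :
    ContinuousAt (fun z => dJ (K.w a z) (JF (Fc D F γ a) z)) z := by
  have hH := holF_Fc (D := D) hG hF
  exact (smooth_MDre (fun k => (cf_Xb K hH k).toSF) γ hz).continuousAt

include hG in
theorem dE_cont (hF : HolB p w F B) {a : C.I} {z : Cm n} (hz : z ∈ C.Ω a) :
    ContinuousAt (dE P K D F a) z :=
  (P.smooth a a z hz).continuousAt.mul (dJ_cont hG hF 1 hz)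

include hG in
theorem dE_aem (hF : HolB p w F B) (a : C.I) :
    AEMeasurable (fun z => ENNReal.ofReal (dE P K D F a z)) (volume.restrict (C.V a)) := by
  have h1 : ContinuousOn (dE P K D F a) (C.V a) := fun z hz =>
    (dE_cont hG hF (V_sub_Ω C a hz)).continuousWithinAt
  exact (h1.aemeasurable measurableSet_ball).ennreal_ofReal

theorem dE_nonneg (hq : q ≤ n) {a : C.I} {z : Cm n} (hz : z ∈ C.Ω a) : 0 ≤ dE P K D F a z :=
  mul_nonneg (P.nonneg a a z) (dJ_nonneg ((K.ku a).pos z hz) _ hq)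

variable [BorelSpace E]

include hG in
theorem sheet_aem (γ : Γ) (a : C.I) {ν : Measure (Cm n)} (hν : ν ≪ volume.restrict (C.V a)) :
    AEMeasurable (fun z => γ • D.σ a z) ν := by
  have h1 : ContinuousOn (fun z => γ • D.σ a z) (C.V a) := fun z hz =>
    (D.cont_at hG γ (V_sub_Ω C a hz)).continuousWithinAt
  exact (h1.aemeasurable measurableSet_ball).mono_ac hν

include hG in
/-- the integral over one sheet -/
theorem lint_mu1 (hF : HolB p w F B) (i : Γ × C.I) {f : E → ℝ≥0∞} (hf : Measurable f) :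
    ∫⁻ y, f y ∂(mu1 P K D F i) =
      ∫⁻ z in C.V i.2, ENNReal.ofReal (dE P K D F i.2 z) * f (i.1 • D.σ i.2 z) := by
  have h1 := sheet_aem (D := D) hG i.1 i.2 (ν := (volume.restrict (C.V i.2)).withDensity
    fun z => ENNReal.ofReal (dE P K D F i.2 z)) (withDensity_absolutelyContinuous _ _)
  have h2 := sheet_aem (D := D) hG i.1 i.2 (ν := volume.restrict (C.V i.2))
    Measure.AbsolutelyContinuous.rfl
  rw [mu1, lintegral_map' hf.aemeasurable h1]
  exact lintegral_withDensity_eq_lintegral_mul₀ (dE_aem hG hF i.2) (hf.comp_aemeasurable h2)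

include hG in
theorem lint_mu (hF : HolB p w F B) {f : E → ℝ≥0∞} (hf : Measurable f) :
    ∫⁻ y, f y ∂(mu P K D F) = ∑' i : Γ × C.I,
      ∫⁻ z in C.V i.2, ENNReal.ofReal (dE P K D F i.2 z) * f (i.1 • D.σ i.2 z) := by
  rw [mu, lintegral_sum_measure]
  exact tsum_congr fun i => lint_mu1 hG hF i hf

include hG in
/-- the Bochner integral over one sheet -/
theorem int_mu1 (hq : q ≤ n) (hF : HolB p w F B) (i : Γ × C.I) {g : E → ℝ} (hg : Measurable g) :
    ∫ y, g y ∂(mu1 P K D F i) = ∫ z in C.V i.2, dE P K D F i.2 z * g (i.1 • D.σ i.2 z) := by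
  have h1 := sheet_aem (D := D) hG i.1 i.2 (ν := (volume.restrict (C.V i.2)).withDensity
    fun z => ENNReal.ofReal (dE P K D F i.2 z)) (withDensity_absolutelyContinuous _ _)
  rw [mu1, integral_map h1 hg.aestronglyMeasurable,
    integral_withDensity_eq_integral_toReal_smul₀ (dE_aem hG hF i.2)
      (Eventually.of_forall fun _ => ENNReal.ofReal_lt_top)]
  refine setIntegral_congr_fun measurableSet_ball fun z hz => ?_
  show (ENNReal.ofReal (dE P K D F i.2 z)).toReal • g (i.1 • D.σ i.2 z) = _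
  rw [ENNReal.toReal_ofReal (dE_nonneg hq (V_sub_Ω C i.2 hz)), smul_eq_mul]

include hG in
/-- the integral of `H650` is the integral for the measure `mu` -/
theorem Int_eq (hq : q ≤ n) (hF : HolB p w F B) {c : Γ → Cm q}
    (hc : ∀ (g : Γ) y, F (g • y) = F y + c g) {g : E → ℝ} (hg : Measurable g)
    (hgi : Integrable g (mu P K D F)) :
    Int P K (fun γ a z => g (γ • D.σ a z) *
      (dJ (K.w a z) (JF (Fc D F γ a) z) / vol (K.w a) z)) = ∫ y, g y ∂(mu P K D F) := by
  have h1 := hasSum_integral_measure hgi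
  have h2 : ∀ i : Γ × C.I, ∫ y, g y ∂(mu1 P K D F i) =
      ∫ z in C.V i.2, dE P K D F i.2 z * g (i.1 • D.σ i.2 z) := fun i => int_mu1 hG hq hF i hg
  simp only [h2] at h1
  have h3 := h1.tsum_eq
  rw [← mu] at h3
  rw [← h3, h1.summable.tsum_prod]
  unfold Vale.Agent.P284.H894.V.Int
  refine tsum_congr fun γ => ?_
  rw [tsum_fintype]
  refine Finset.sum_congr rfl fun a _ => ?_
  refine setIntegral_congr_fun measurableSet_ball fun z hz => ?_
  have hv := (vol_pos K (V_sub_Ω C a hz)).ne'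
  simp only [dE]
  rw [JF_Fc hc γ]
  field_simp

/-- sheets which meet the preimage of a ball -/
theorem fin_sheets (hG : IsGalois Γ p) (hFc : Continuous F) {c : Γ → Cm q}
    (hc : ∀ (g : Γ) y, F (g • y) = F y + c g)
    (hfin : ∀ R : ℝ, {g : Γ | ‖c g‖ ≤ R}.Finite) (R : ℝ) :
    {i : Γ × C.I | ∃ z ∈ C.V i.2, ‖F (i.1 • D.σ i.2 z)‖ ≤ R}.Finite := by
  have h1 : ∀ a : C.I, ∃ M : ℝ, ∀ z ∈ C.V a, ‖F (D.σ a z)‖ ≤ M := by
    intro a
    have hcpt : IsCompact (closedBall (C.c a) (3 * C.r a)) := isCompact_closedBall _ _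
    have hsub : closedBall (C.c a) (3 * C.r a) ⊆ C.Ω a :=
      closedBall_subset_ball (by linarith [C.r_pos a])
    obtain ⟨M, hM⟩ := hcpt.exists_bound_of_continuousOn
      (hFc.comp_continuousOn ((D.cont a).mono hsub))
    exact ⟨M, fun z hz => hM z (ball_subset_closedBall hz)⟩
  choose M hM using h1
  have hfi : Finite C.I := by
    have := C.fin
    infer_instance
  refine ((hfin (R + ∑ a, |M a|)).prod (Set.finite_univ (α := C.I))).subset ?_
  rintro ⟨γ, a⟩ ⟨z, hz, h⟩
  refine ⟨?_, mem_univ _⟩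
  rw [hc] at h
  have h2 := hM a z hz
  have h3 : |M a| ≤ ∑ a, |M a| :=
    Finset.single_le_sum (f := fun a => |M a|) (fun _ _ => abs_nonneg _) (Finset.mem_univ a)
  show ‖c γ‖ ≤ _
  calc ‖c γ‖ = ‖(F (D.σ a z) + c γ) - F (D.σ a z)‖ := by congr 1; abel
    _ ≤ ‖F (D.σ a z) + c γ‖ + ‖F (D.σ a z)‖ := norm_sub_le _ _
    _ ≤ R + ∑ a, |M a| := by linarith [le_abs_self (M a)]

include hG in
/-- integrals over the preimage of a ball are finite for locally bounded functions -/
theorem lint_fin (hF : HolB p w F B) (hFc : Continuous F) {c : Γ → Cm q}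
    (hc : ∀ (g : Γ) y, F (g • y) = F y + c g)
    (hfin : ∀ R : ℝ, {g : Γ | ‖c g‖ ≤ R}.Finite) {N : E → ℝ≥0∞} (hN : Measurable N)
    (hb : ∀ (γ : Γ) (a : C.I), ∀ z₀ ∈ closedBall (C.c a) (3 * C.r a), ∃ M : ℝ, ∀ᶠ z in 𝓝 z₀,
      ENNReal.ofReal (dE P K D F a z) * N (γ • D.σ a z) ≤ ENNReal.ofReal M) (R : ℝ) :
    ∫⁻ y in {y | ‖F y‖ ≤ R}, N y ∂(mu P K D F) < ⊤ := by
  have hms : MeasurableSet {y : E | ‖F y‖ ≤ R} :=
    (isClosed_le hFc.norm continuous_const).measurableSet
  rw [← lintegral_indicator hms, lint_mu hG hF (hN.indicator hms)]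
  have hS := fin_sheets (D := D) hG hFc hc hfin R
  rw [tsum_eq_sum (s := hS.toFinset)]
  · refine ENNReal.sum_lt_top.2 fun i _ => ?_
    have hcpt : IsCompact (closedBall (C.c i.2) (3 * C.r i.2)) := isCompact_closedBall _ _
    obtain ⟨M, hM⟩ : ∃ M : ℝ, ∀ z ∈ closedBall (C.c i.2) (3 * C.r i.2),
        ENNReal.ofReal (dE P K D F i.2 z) * N (i.1 • D.σ i.2 z) ≤ ENNReal.ofReal M := by
      refine hcpt.induction_on (p := fun S => ∃ M : ℝ, ∀ z ∈ S,
        ENNReal.ofReal (dE P K D F i.2 z) * N (i.1 • D.σ i.2 z) ≤ ENNReal.ofReal M) ?_ ?_ ?_ ?_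
      · exact ⟨0, by simp⟩
      · rintro S T hST ⟨M, hM⟩
        exact ⟨M, fun z hz => hM z (hST hz)⟩
      · rintro S T ⟨M, hM⟩ ⟨M', hM'⟩
        refine ⟨max M M', fun z hz => ?_⟩
        rcases hz with hz | hz
        · exact (hM z hz).trans (ENNReal.ofReal_le_ofReal (le_max_left _ _))
        · exact (hM' z hz).trans (ENNReal.ofReal_le_ofReal (le_max_right _ _))
      · intro z₀ hz₀
        obtain ⟨M, hM⟩ := hb i.1 i.2 z₀ hz₀
        exact ⟨_, mem_nhdsWithin_of_mem_nhds hM, M, fun z hz => hz⟩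
    calc ∫⁻ z in C.V i.2, ENNReal.ofReal (dE P K D F i.2 z) *
          {y : E | ‖F y‖ ≤ R}.indicator N (i.1 • D.σ i.2 z)
        ≤ ∫⁻ _ in C.V i.2, ENNReal.ofReal M := by
          refine setLIntegral_mono' measurableSet_ball fun z hz => ?_
          refine le_trans ?_ (hM z (ball_subset_closedBall hz))
          gcongr
          exact indicator_le_self _ _ _
      _ < ⊤ := by
          rw [lintegral_const, Measure.restrict_apply MeasurableSet.univ, univ_inter]
          exact ENNReal.mul_lt_top ENNReal.ofReal_lt_top measure_ball_lt_top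
  · intro i hi
    rw [Set.Finite.mem_toFinset] at hi
    have h0 : ∀ z ∈ C.V i.2, ENNReal.ofReal (dE P K D F i.2 z) *
        {y : E | ‖F y‖ ≤ R}.indicator N (i.1 • D.σ i.2 z) = 0 := by
      intro z hz
      rw [indicator_of_notMem, mul_zero]
      intro h
      exact hi ⟨z, hz, h⟩
    have hV : MeasurableSet (C.V i.2) := measurableSet_ball
    rw [setLIntegral_congr_fun hV h0]
    simp

end

end Vale.Agent.P284.H501.K
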