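import Vale.Agent.P284.H501.K.Mu

/-!
# P284 (helper501), K11: the measure `|dF_1 ∧ … ∧ dF_q|² dV`: positivity, finiteness
-/

open scoped Manifold ContDiff Topology Pointwise ComplexConjugate ComplexOrder Matrix ENNReal
open Filter Set Metric MeasureTheory

noncomputable section

set_option linter.unusedSectionVars false

namespace Vale.Agent.P284.H501.K

open Vale.Agent.P272.K Vale.Agent.P284.H248 Vale.Agent.P284.H894 Vale.Agent.P284.H894.G
  Vale.Agent.P284.H894.V Vale.Agent.P284.H894.W Vale.Agent.P284.H639.V Vale.Agent.P284.H66.S7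
  Vale.Agent.P284.H650 Vale.Agent.P284.H551

/-- the Jacobian matrix of a holomorphic map -/
theorem JF_apply {n q : ℕ} {f : Cm n → Cm q} {z : Cm n} (hf : DifferentiableAt ℂ f z) (i : Fin q)
    (v : Cm n) : ∑ l, JF f z i l * v l = fderiv ℂ f z v i := by
  have hv : v = ∑ j, v j • (Pi.single j (1 : ℂ) : Cm n) := by
    ext k
    simp [Finset.sum_apply, Pi.single_apply]
  conv_rhs => rw [hv]
  rw [map_sum, Finset.sum_apply]
  refine Finset.sum_congr rfl fun j _ => ?_
  rw [map_smul, Pi.smul_apply, smul_eq_mul, mul_comm, JF, Matrix.of_apply,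
    Vale.Agent.P272.K.dz_of_holo (differentiableAt_pi.1 hf i), fderiv_apply hf]
  rfl

theorem dJ_pos_of_surj {n q : ℕ} {f : Cm n → Cm q} {z : Cm n} (hf : DifferentiableAt ℂ f z)
    (hs : Function.Surjective (fderiv ℂ f z)) {w : Matrix (Fin n) (Fin n) ℂ} (hw : w.PosDef)
    (hq : q ≤ n) : 0 < dJ w (JF f z) := by
  choose ξ hξ using fun j : Fin q => hs (Pi.single j 1)
  refine dJ_pos hw _ hq (ξ := ξ) ?_
  have : (Matrix.of fun i j => ∑ l, JF f z i l * ξ j l) = (1 : Matrix (Fin q) (Fin q) ℂ) := by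
    ext i j
    rw [Matrix.of_apply, JF_apply hf, hξ, Matrix.one_apply, Pi.single_apply]
  rw [this, Matrix.det_one]
  exact one_ne_zero

section
variable {n q : ℕ} {Γ X E : Type} [Group Γ] [TopologicalSpace X] [ChartedSpace (Cm n) X]
  [TopologicalSpace E] [MulAction Γ E] {p : E → X} {C : Coc n Γ}
  {w : Chart n X → Cm n → Matrix (Fin n) (Fin n) ℂ} {B : ℝ}
  {P : PU C} {K : KM C} {D : ECoc p C} {F : E → Cm q}
  [MeasurableSpace E] [BorelSpace E] (hG : IsGalois Γ p)

include hG in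
/-- every point lies on a sheet where the function of the partition of unity is positive -/
theorem exists_chi (P : PU C) (D : ECoc p C) (y : E) :
    ∃ (γ : Γ) (a : C.I), ∃ z ∈ C.V a, γ • D.σ a z = y ∧ 0 < P.χ a a z := by
  obtain ⟨γ, a, h1, h2, h3⟩ := D.exists_sheet hG y
  set z := D.e a (p y) with hz
  have hzΩ : z ∈ C.Ω a := ball_subset_ball (by linarith [C.r_pos a]) h2
  obtain ⟨b, hb⟩ : ∃ b, P.χ b a z ≠ 0 := by
    by_contra hcon
    push Not at hcon
    have := P.sum_one a z hzΩ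
    simp only [hcon, Finset.sum_const_zero] at this
    exact zero_ne_one this
  obtain ⟨h4, h5⟩ := P.supp b a z hzΩ hb
  refine ⟨γ * C.κ a b z, b, C.T a b z, P.K_sub b h5, ?_, ?_⟩
  · rw [D.smul_T h4, h3]
  · rw [← P.compat b a b z h4]
    exact lt_of_le_of_ne (P.nonneg b a z) hb.symm

include hG in
theorem mu_pos [IsManifold 𝓘(ℂ, Cm n) ω X] (hq : q ≤ n) (hF : HolB p w F B) {c : Γ → Cm q}
    (hc : ∀ (g : Γ) y, F (g • y) = F y + c g) {U : Set E}
    (hU : IsOpen U) {y : E} (hy : y ∈ U) (hr : Reg (n := n) p F y) : 0 < mu P K D F U := by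
  obtain ⟨γ, a, z, hz, hzy, hχ⟩ := exists_chi hG P D y
  have hzΩ := V_sub_Ω C a hz
  have hd : 0 < dJ (K.w a z) (JF (Fc D F γ a) z) := by
    rw [← hzy] at hr
    exact dJ_pos_of_surj (Fc_hol hG D hF γ hzΩ).1 ((reg_iff hG D hF γ hzΩ).1 hr)
      ((K.ku a).pos z hzΩ) hq
  by_contra hcon
  have h0 : mu P K D F U = 0 := le_antisymm (not_lt.1 hcon) zero_le
  have h1 : mu P K D F U = ∫⁻ y, U.indicator (fun _ => 1) y ∂(mu P K D F) := by
    rw [lintegral_indicator hU.measurableSet, setLIntegral_one]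
  rw [h0, lint_mu hG hF (measurable_const.indicator hU.measurableSet)] at h1
  have h2 := (ENNReal.tsum_eq_zero.1 h1.symm) (γ, a)
  simp only at h2
  have haem : AEMeasurable (fun z => ENNReal.ofReal (dE P K D F a z) *
      U.indicator (fun _ => (1 : ℝ≥0∞)) (γ • D.σ a z)) (volume.restrict (C.V a)) :=
    (dE_aem hG hF a).mul ((measurable_const.indicator hU.measurableSet).comp_aemeasurable
      (sheet_aem hG γ a Measure.AbsolutelyContinuous.rfl))
  rw [lintegral_eq_zero_iff' haem] at h2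
  have hdc' : ContinuousAt (dE P K D F a) z := dE_cont hG hF hzΩ
  have hdE : 0 < dE P K D F a z := by
    rw [dE, ← JF_Fc hc γ]
    exact mul_pos hχ hd
  have hV : MeasurableSet (C.V a) := measurableSet_ball
  have h3 := (ae_restrict_iff' hV).1 h2
  have hev : ∀ᶠ z' in 𝓝 z, z' ∈ C.V a ∧ 0 < dE P K D F a z' ∧ γ • D.σ a z' ∈ U := by
    have h4 : ∀ᶠ z' in 𝓝 z, z' ∈ C.V a := isOpen_ball.mem_nhds hz
    have h5 : ∀ᶠ z' in 𝓝 z, γ • D.σ a z' ∈ U := by
      refine (D.cont_at hG γ hzΩ).eventually (hU.mem_nhds ?_)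
      show γ • D.σ a z ∈ U
      rw [hzy]
      exact hy
    filter_upwards [h4, hdc'.eventually (lt_mem_nhds hdE), h5] with z' a1 a2 a3 using ⟨a1, a2, a3⟩
  obtain ⟨O, hO, hOo, hzO⟩ := _root_.mem_nhds_iff.1 hev
  have h6 : volume O = 0 := by
    refine measure_mono_null (fun z' hz' => ?_) h3
    obtain ⟨a1, a2, a3⟩ := hO hz'
    intro h7
    have h8 := h7 a1
    simp only [indicator_of_mem a3, mul_one, Pi.zero_apply] at h8
    rw [ENNReal.ofReal_eq_zero] at h8
    linarith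
  exact (hOo.measure_pos volume ⟨z, hzO⟩).ne' h6

include hG in
/-- the preimages of balls have finite measure -/
theorem mu_fin (hF : HolB p w F B) (hFc : Continuous F) {c : Γ → Cm q}
    (hc : ∀ (g : Γ) y, F (g • y) = F y + c g)
    (hfin : ∀ R : ℝ, {g : Γ | ‖c g‖ ≤ R}.Finite) (R : ℝ) :
    mu P K D F {y | ‖F y‖ ≤ R} < ⊤ := by
  have h1 := lint_fin (P := P) (K := K) (D := D) hG hF hFc hc hfin
    (N := fun _ => 1) measurable_const (fun γ a z₀ hz₀ => ?_) R
  · rwa [setLIntegral_one] at h1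
  · have hzΩ : z₀ ∈ C.Ω a := (closedBall_subset_ball (by linarith [C.r_pos a]) :
      closedBall (C.c a) (3 * C.r a) ⊆ ball (C.c a) (4 * C.r a)) hz₀
    have h2 : ContinuousAt (dE P K D F a) z₀ := dE_cont hG hF hzΩ
    refine ⟨dE P K D F a z₀ + 1, ?_⟩
    filter_upwards [h2.eventually (gt_mem_nhds (lt_add_one (dE P K D F a z₀)))] with z hz
    rw [mul_one]
    exact ENNReal.ofReal_le_ofReal (le_of_lt hz)

end

end Vale.Agent.P284.H501.K
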