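import Vale.Agent.P284.H501.K.Den
import Vale.Agent.P284.H672.TX

/-!
# P284 (helper501), K11: functions with the local structure of `‖h‖²`
-/

open scoped Manifold ContDiff Topology Pointwise ComplexConjugate ComplexOrder Matrix ENNReal
open Filter Set Metric MeasureTheory

noncomputable section

set_option linter.unusedSectionVars false

namespace Vale.Agent.P284.H501.K

open Vale.Agent.P272.K Vale.Agent.P284.H248 Vale.Agent.P284.H894 Vale.Agent.P284.H894.G
  Vale.Agent.P284.H894.V Vale.Agent.P284.H894.W Vale.Agent.P284.H639.V Vale.Agent.P284.H66.S7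
  Vale.Agent.P284.H650 Vale.Agent.P284.H551 Vale.Agent.P284.H224 Vale.Agent.P284.H494
  Vale.Agent.P284.H10

/-- `N` is locally `‖f(F)‖²` at the regular points, and `|∂F/∂ξ|² N` is locally bounded by the square of
the norm of an analytic function -/
structure NF (n : ℕ) {X E : Type} [TopologicalSpace X] [ChartedSpace (Cm n) X] [TopologicalSpace E]
    (p : E → X) {q : ℕ} (F : E → Cm q) (W : Type) [NormedAddCommGroup W] [InnerProductSpace ℂ W]
    (N : E → ℝ≥0∞) : Prop where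
  loc : ∀ y, Reg (n := n) p F y → ∃ f : Cm q → W, AnalyticAt ℂ f (F y) ∧
    ∀ᶠ y' in 𝓝 y, N y' = ENNReal.ofReal (‖f (F y')‖ ^ 2)
  ext : ∀ (y : E) (e : Chart n X) (f : Cm n → Cm q), At e (p y) → AnalyticAt ℂ f (e (p y)) →
    (∀ᶠ y' in 𝓝 y, F y' = f (e (p y'))) → ∀ ξ : Fin q → Cm n, ∃ φ : Cm n → W,
      AnalyticAt ℂ φ (e (p y)) ∧ ∀ᶠ y' in 𝓝 y, ENNReal.ofReal
        (‖(Matrix.of fun i j => fderiv ℂ f (e (p y')) (ξ j) i).det‖ ^ 2) * N y' ≤
          ENNReal.ofReal (‖φ (e (p y'))‖ ^ 2)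
  out : ∀ y, ¬ Reg (n := n) p F y → N y = 0

section
variable {n q : ℕ} {X E : Type} [TopologicalSpace X] [ChartedSpace (Cm n) X]
  [TopologicalSpace E] {p : E → X} {F : E → Cm q} {W : Type} [NormedAddCommGroup W]
  [InnerProductSpace ℂ W] {N : E → ℝ≥0∞}

theorem NF.cont (hN : NF n p F W N) (hFc : Continuous F) {y : E} (hy : Reg (n := n) p F y) :
    ContinuousAt N y := by
  obtain ⟨f, hf, he⟩ := hN.loc y hy
  have h1 : ContinuousAt (fun y' => ENNReal.ofReal (‖f (F y')‖ ^ 2)) y := by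
    have h2 : ContinuousAt (fun y' => f (F y')) y := by
      refine ContinuousAt.comp (g := f) (f := F) ?_ hFc.continuousAt
      exact hf.continuousAt
    exact ENNReal.continuous_ofReal.continuousAt.comp (h2.norm.pow 2)
  exact h1.congr (by filter_upwards [he] with y' h using h.symm)

theorem NF.meas [MeasurableSpace E] [BorelSpace E] (hN : NF n p F W N) (hFc : Continuous F) :
    Measurable N := by
  refine LowerSemicontinuous.measurable fun y a ha => ?_
  have ha' : a < N y := ha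
  by_cases hy : Reg (n := n) p F y
  · exact (hN.cont hFc hy).eventually (lt_mem_nhds ha')
  · rw [hN.out y hy] at ha'
    exact absurd ha' not_lt_zero

theorem NF.same (hN : NF n p F W N) {y y' : E} (hy : F y ∈ RV n p F) (hs : Same F y y') :
    N y = N y' := by
  refine H672.const_of_loc (F := F) (C := connectedComponentIn (F ⁻¹' {F y}) y)
    isPreconnected_connectedComponentIn (v := F y) (fun x hx => ?_) (fun x hx => ?_)
    (mem_connectedComponentIn rfl) hs
  · exact (connectedComponentIn_subset _ _ hx : x ∈ F ⁻¹' {F y})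
  · have h3 : F x = F y := (connectedComponentIn_subset _ _ hx : x ∈ F ⁻¹' {F y})
    obtain ⟨f, -, hf⟩ := hN.loc x (hy x h3)
    exact ⟨fun t => ENNReal.ofReal (‖f t‖ ^ 2), hf⟩

end

section
variable {n q : ℕ} {Γ X E : Type} [Group Γ] [TopologicalSpace X] [ChartedSpace (Cm n) X]
  [TopologicalSpace E] [MulAction Γ E] {p : E → X} {C : Coc n Γ}
  {w : Chart n X → Cm n → Matrix (Fin n) (Fin n) ℂ} {B : ℝ}
  {P : PU C} {K : KM C} {D : ECoc p C} {F : E → Cm q}
  [MeasurableSpace E] [BorelSpace E] (hG : IsGalois Γ p)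
  {W : Type} [NormedAddCommGroup W] [InnerProductSpace ℂ W] {N : E → ℝ≥0∞}

theorem mn_comb {A : ℝ} (hA : 0 ≤ A) (J : Matrix (Fin q) (Fin n) ℂ) (x : ℝ≥0∞)
    (b : (Fin q → Fin n) → ℝ) (hb : ∀ L, 0 ≤ b L)
    (h : ∀ L, ENNReal.ofReal (‖(J.submatrix id L).det‖ ^ 2) * x ≤ ENNReal.ofReal (b L)) :
    ENNReal.ofReal (A * mn J) * x ≤ ENNReal.ofReal (A * ∑ L, b L) := by
  have h1 : ENNReal.ofReal (mn J) =
      ∑ L : Fin q → Fin n, ENNReal.ofReal (‖(J.submatrix id L).det‖ ^ 2) := by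
    rw [mn]
    exact ENNReal.ofReal_sum_of_nonneg fun _ _ => sq_nonneg _
  have h2 : ENNReal.ofReal (∑ L, b L) = ∑ L : Fin q → Fin n, ENNReal.ofReal (b L) :=
    ENNReal.ofReal_sum_of_nonneg fun L _ => hb L
  rw [ENNReal.ofReal_mul hA, ENNReal.ofReal_mul hA, h1, h2, mul_assoc, Finset.sum_mul]
  exact mul_le_mul_right (Finset.sum_le_sum fun L _ => h L) _

theorem K_cont (K : KM C) {a : C.I} {z : Cm n} (hz : z ∈ C.Ω a) :
    ContinuousAt (fun z => (n - q).factorial * (K.w a z).det.re * ((K.w a z)⁻¹).trace.re ^ q) z := by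
  have h1 : ContinuousAt (K.w a) z := by
    refine continuousAt_pi.2 fun i => continuousAt_pi.2 fun j => ?_
    exact ((K.ku a).smooth z hz i j).continuousAt
  have h2 : ContinuousAt (fun z => (K.w a z).det) z :=
    (Continuous.matrix_det continuous_id).continuousAt.comp h1
  have hne : (K.w a z).det ≠ 0 := ((K.ku a).pos z hz).det_pos.ne'
  have h3 : ContinuousAt (fun z => (K.w a z)⁻¹) z := by
    have h4 : (fun z => (K.w a z)⁻¹) = fun z => ((K.w a z).det)⁻¹ • (K.w a z).adjugate := by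
      funext z
      rw [Matrix.inv_def, Ring.inverse_eq_inv']
    rw [h4]
    exact (h2.inv₀ hne).smul ((Continuous.matrix_adjugate continuous_id).continuousAt.comp h1)
  have h5 : ContinuousAt (fun z => ((K.w a z)⁻¹).trace) z :=
    (Continuous.matrix_trace continuous_id).continuousAt.comp h3
  exact (continuousAt_const.mul (Complex.continuous_re.continuousAt.comp h2)).mul
    ((Complex.continuous_re.continuousAt.comp h5).pow q)

include hG in
/-- local bounds -/
theorem NF.bd (hN : NF n p F W N) (hq : q ≤ n) (hF : HolB p w F B) {c : Γ → Cm q}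
    (hc : ∀ (g : Γ) y, F (g • y) = F y + c g) (γ : Γ) {a : C.I} {z₀ : Cm n}
    (hz₀ : z₀ ∈ C.Ω a) : ∃ M : ℝ, ∀ᶠ z in 𝓝 z₀,
      ENNReal.ofReal (dE P K D F a z) * N (γ • D.σ a z) ≤ ENNReal.ofReal M := by
  classical
  have hAt := D.at_sheet hG γ hz₀
  have hez : D.e a (p (γ • D.σ a z₀)) = z₀ := D.e_proj hG γ hz₀
  have han : AnalyticAt ℂ (Fc D F γ a) (D.e a (p (γ • D.σ a z₀))) := by
    rw [hez]
    exact Fc_an hG D hF γ hz₀
  have h1 := fun L : Fin q → Fin n => hN.ext (γ • D.σ a z₀) (D.e a) (Fc D F γ a) hAt han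
    (Fc_rep hG D F γ hz₀) fun j => Pi.single (L j) 1
  choose φ hφa hφ using h1
  -- pull back to the piece
  have h2 : ∀ L, ∀ᶠ z in 𝓝 z₀, ENNReal.ofReal
      (‖((JF (Fc D F γ a) z).submatrix id L).det‖ ^ 2) * N (γ • D.σ a z) ≤
        ENNReal.ofReal (‖φ L z₀‖ ^ 2 + 1) := by
    intro L
    have hφc : ContinuousAt (fun z => ‖φ L z‖ ^ 2) z₀ := by
      have := (hφa L).continuousAt
      rw [hez] at this
      exact this.norm.pow 2
    have h3 : ∀ᶠ z in 𝓝 z₀, ‖φ L z‖ ^ 2 < ‖φ L z₀‖ ^ 2 + 1 :=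
      hφc.eventually (gt_mem_nhds (lt_add_one _))
    filter_upwards [(D.cont_at hG γ hz₀).eventually (hφ L), (isOpen_Ω C a).mem_nhds hz₀, h3]
      with z hz1 hz2 hz3
    rw [D.e_proj hG γ hz2] at hz1
    have h4 : ((JF (Fc D F γ a) z).submatrix id L) =
        Matrix.of fun i j => fderiv ℂ (Fc D F γ a) z (Pi.single (L j) 1) i := by
      ext i j
      have hd := (Fc_hol hG D hF γ hz2).1
      rw [Matrix.submatrix_apply, id, Matrix.of_apply, JF, Matrix.of_apply,
        Vale.Agent.P272.K.dz_of_holo (differentiableAt_pi.1 hd i), fderiv_apply hd]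
      rfl
    rw [h4]
    exact hz1.trans (ENNReal.ofReal_le_ofReal hz3.le)
  have hKc : ContinuousAt (fun z => P.χ a a z *
      ((n - q).factorial * (K.w a z).det.re * ((K.w a z)⁻¹).trace.re ^ q)) z₀ :=
    (P.smooth a a z₀ hz₀).continuousAt.mul (K_cont K hz₀)
  set G : Cm n → ℝ := fun z => P.χ a a z *
      ((n - q).factorial * (K.w a z).det.re * ((K.w a z)⁻¹).trace.re ^ q) with hGd
  have h5 : ∀ᶠ z in 𝓝 z₀, G z < G z₀ + 1 := hKc.eventually (gt_mem_nhds (lt_add_one _))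
  refine ⟨max (G z₀ + 1) 0 * ∑ L : Fin q → Fin n, (‖φ L z₀‖ ^ 2 + 1), ?_⟩
  filter_upwards [eventually_all.2 h2, (isOpen_Ω C a).mem_nhds hz₀, h5] with z hz1 hz2 hz3
  have hw := (K.ku a).pos z hz2
  have h6 : dE P K D F a z ≤ max (G z₀ + 1) 0 * mn (JF (Fc D F γ a) z) := by
    rw [dE, ← JF_Fc hc γ]
    have h7 := dJ_le (JF (Fc D F γ a) z) hw hq
    have h8 := mul_le_mul_of_nonneg_left h7 (P.nonneg a a z)
    have h9 : G z * mn (JF (Fc D F γ a) z) ≤ max (G z₀ + 1) 0 * mn (JF (Fc D F γ a) z) :=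
      mul_le_mul_of_nonneg_right (hz3.le.trans (le_max_left _ _)) (mn_nonneg _)
    refine h8.trans (le_trans (le_of_eq ?_) h9)
    show _ = P.χ a a z * (_ * _ * _) * _
    ring
  have hm0 : 0 ≤ max (G z₀ + 1) 0 := le_max_right _ _
  refine le_trans (mul_le_mul_left (ENNReal.ofReal_le_ofReal h6) _) ?_
  exact mn_comb hm0 _ _ _ (fun L => by positivity) hz1

include hG in
/-- finite mass over balls -/
theorem NF.fin (hN : NF n p F W N) (hq : q ≤ n) (hF : HolB p w F B) (hFc : Continuous F)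
    {c : Γ → Cm q} (hc : ∀ (g : Γ) y, F (g • y) = F y + c g)
    (hfin : ∀ R : ℝ, {g : Γ | ‖c g‖ ≤ R}.Finite) (R : ℝ) :
    ∫⁻ y in {y | ‖F y‖ ≤ R}, N y ∂(mu P K D F) < ⊤ := by
  refine lint_fin hG hF hFc hc hfin (hN.meas hFc) (fun γ a z₀ hz₀ => ?_) R
  exact hN.bd hG hq hF hc γ ((closedBall_subset_ball (by linarith [C.r_pos a]) :
      closedBall (C.c a) (3 * C.r a) ⊆ ball (C.c a) (4 * C.r a)) hz₀)

end

end Vale.Agent.P284.H501.K
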