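import Vale.Agent.P284.H501.K.NF

/-!
# P284 (helper501), K11: the density of the push-forward of `N |dF_1 ∧ … ∧ dF_q|² dV`
-/

open scoped Manifold ContDiff Topology Pointwise ComplexConjugate ComplexOrder Matrix ENNReal
open Filter Set Metric MeasureTheory

noncomputable section

set_option linter.unusedSectionVars false

namespace Vale.Agent.P284.H501.K

open Vale.Agent.P272.K Vale.Agent.P284.H248 Vale.Agent.P284.H894 Vale.Agent.P284.H894.G
  Vale.Agent.P284.H894.V Vale.Agent.P284.H894.W Vale.Agent.P284.H639.V Vale.Agent.P284.H66.S7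
  Vale.Agent.P284.H650 Vale.Agent.P284.H551 Vale.Agent.P284.H224 Vale.Agent.P284.H494
  Vale.Agent.P284.H10

section
variable {n q : ℕ} {Γ X E : Type} [Group Γ] [TopologicalSpace X] [ChartedSpace (Cm n) X]
  [TopologicalSpace E] [MulAction Γ E] {p : E → X} {C : Coc n Γ}
  {w : Chart n X → Cm n → Matrix (Fin n) (Fin n) ℂ} {B : ℝ}
  {P : PU C} {K : KM C} {D : ECoc p C} {F : E → Cm q}
  [MeasurableSpace E] [BorelSpace E] (hG : IsGalois Γ p)
  {W : Type} [NormedAddCommGroup W] [InnerProductSpace ℂ W] {N : E → ℝ≥0∞} {M : Subgroup Γ}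

variable (P K D F N) in
/-- averages of the push-forward -/
def uN (t : Cm q) (k : ℕ) : ℝ≥0∞ :=
  ∫⁻ z, ENNReal.ofReal (ph t ((k : ℝ) + 1)⁻¹ (F z)) * N z ∂(mu P K D F)

variable (P K D F N) in
/-- the density -/
def sN (v₀ : ℝ) (t : Cm q) : ℝ≥0∞ :=
  (ENNReal.ofReal v₀)⁻¹ * liminf (fun k : ℕ => uN P K D F N t k) atTop

include hG in
/-- the density dominates `N` -/
theorem le_sN [IsManifold 𝓘(ℂ, Cm n) ω X] (hD : TD F M (RV n p F))
    (hF : HolB p w F B) {c : Γ → Cm q}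
    (hc : ∀ (g : Γ) y, F (g • y) = F y + c g)
    (hfin : ∀ R : ℝ, {g : Γ | ‖c g‖ ≤ R}.Finite) {v₀ : ℝ} (hv₀ : 0 < v₀)
    (h : ∀ (σ : Cm q → E) (t : Cm q) (r : ℝ), IsSec F (RV n p F) σ t r → ∀ (a : Cm q) (ρ : ℝ),
      0 < ρ → dist a t + ρ < r → ∫ z in tube F σ t r, ph a ρ (F z) ∂(mu P K D F) = v₀)
    (hN : NF n p F W N) {y : E} (hy : F y ∈ RV n p F) : N y ≤ sN P K D F N v₀ (F y) := by
  have hv : ENNReal.ofReal v₀ ≠ 0 := by simpa using hv₀
  refine le_of_forall_lt_imp_le_of_dense fun α hα => ?_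
  have hreg : Reg (n := n) p F y := hy y rfl
  obtain ⟨r₁, hr₁, σ, hσ, hσy, hσF⟩ := exists_section hG.cov hF hreg
  obtain ⟨r₂, hr₂, hb⟩ := Metric.isOpen_iff.1 hD.ropen _ hy
  have hr : 0 < min r₁ r₂ := lt_min hr₁ hr₂
  set r := min r₁ r₂ with hrd
  have h1 : IsSec F (RV n p F) σ (F y) r :=
    ⟨(ball_subset_ball (min_le_right _ _)).trans hb, hσ.mono (ball_subset_ball (min_le_left _ _)),
      fun s hs => hσF s (ball_subset_ball (min_le_left _ _) hs)⟩
  have h2 : ContinuousAt (fun s => N (σ s)) (F y) := by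
    refine ContinuousAt.comp (g := N) (f := σ) ?_ (hσ.continuousAt (ball_mem_nhds _ hr₁))
    rw [hσy]
    exact hN.cont hD.cont hreg
  have h3 : ∀ᶠ s in 𝓝 (F y), α < N (σ s) := h2.eventually (lt_mem_nhds (by
    show α < N (σ (F y))
    rwa [hσy]))
  obtain ⟨δ, hδ, hδb⟩ := Metric.eventually_nhds_iff_ball.1 h3
  have hlim : ∀ᶠ k : ℕ in atTop, ((k : ℝ) + 1)⁻¹ < min δ r := by
    have h4 : Tendsto (fun k : ℕ => ((k : ℝ) + 1)⁻¹) atTop (𝓝 0) := by
      simpa using tendsto_one_div_add_atTop_nhds_zero_nat (𝕜 := ℝ)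
    exact h4.eventually (gt_mem_nhds (lt_min hδ hr))
  have h5 : ∀ᶠ k : ℕ in atTop, α * ENNReal.ofReal v₀ ≤ uN P K D F N (F y) k := by
    filter_upwards [hlim] with k hk
    have hρ0 : 0 < ((k : ℝ) + 1)⁻¹ := by positivity
    have hk1 := hk.trans_le (min_le_left _ _)
    have hk2 := hk.trans_le (min_le_right _ _)
    have hlv := lint_vol (P := P) (K := K) (D := D) hG hD hF hc hfin h1
      (h σ (F y) r h1 (F y) _ hρ0 (by rw [dist_self, zero_add]; exact hk2))
    have hTm := (tube_tub hD h1).opn.measurableSet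
    have hmm : Measurable fun z => ENNReal.ofReal (ph (F y) ((k : ℝ) + 1)⁻¹ (F z)) :=
      (((ph_smooth (F y) ((k : ℝ) + 1)⁻¹).continuous.comp hD.cont).measurable).ennreal_ofReal
    rw [← hlv, ← lintegral_const_mul _ hmm, uN]
    refine le_trans ?_ (setLIntegral_le_lintegral (tube F σ (F y) r) _)
    refine setLIntegral_mono' hTm fun z hz => ?_
    by_cases hzb : F z ∈ ball (F y) ((k : ℝ) + 1)⁻¹
    · rw [mul_comm]
      refine mul_le_mul_right ?_ _
      have h6 := hδb (F z) (ball_subset_ball hk1.le hzb)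
      have h7 : N (σ (F z)) = N z := hN.same (by
        rw [h1.sec _ hz.1]
        exact h1.sub hz.1) hz.2
      rw [← h7]
      exact h6.le
    · rw [ph_zero hρ0 hzb]
      simp
  have h6 : α * ENNReal.ofReal v₀ ≤ liminf (fun k : ℕ => uN P K D F N (F y) k) atTop :=
    le_liminf_of_le (by isBoundedDefault) h5
  rw [sN]
  calc α = (ENNReal.ofReal v₀)⁻¹ * (α * ENNReal.ofReal v₀) := by
        rw [mul_comm α, ← mul_assoc, ENNReal.inv_mul_cancel hv ENNReal.ofReal_ne_top, one_mul]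
    _ ≤ _ := mul_le_mul_right h6 _

/-- the mass of the density -/
theorem int_sN (hFc : Continuous F) {c : Γ → Cm q}
    (hfin : ∀ R : ℝ, {g : Γ | ‖c g‖ ≤ R}.Finite) {v₀ : ℝ} (hv₀ : 0 < v₀)
    (hNm : Measurable N) {S : Set (Cm q)} (hS : MeasurableSet S) :
    ∫⁻ t in S, sN P K D F N v₀ t ≤ (ENNReal.ofReal v₀)⁻¹ * ENNReal.ofReal (mq q) *
      ∫⁻ z in F ⁻¹' thickening 1 S, N z ∂(mu P K D F) := by
  have hv : ENNReal.ofReal v₀ ≠ 0 := by simpa using hv₀
  have hcount : Countable Γ := count_of_fin hfin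
  have hsf : SFinite (mu P K D F) := mu_sfin
  have hum : ∀ k, Measurable fun t => uN P K D F N t k := by
    intro k
    have h1 : Measurable fun y : Cm q × E => (y.1, F y.2) :=
      measurable_fst.prodMk (hFc.measurable.comp measurable_snd)
    have h2 : Measurable fun y : Cm q × E =>
        ENNReal.ofReal (ph y.1 ((k : ℝ) + 1)⁻¹ (F y.2)) * N y.2 :=
      ((ph_meas ((k : ℝ) + 1)⁻¹).comp h1).ennreal_ofReal.mul (hNm.comp measurable_snd)
    exact h2.lintegral_prod_right'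
  have hTm : MeasurableSet (F ⁻¹' thickening 1 S) :=
    (isOpen_thickening.preimage hFc).measurableSet
  have hk : ∀ k : ℕ, ∫⁻ t in S, uN P K D F N t k ≤
      ENNReal.ofReal (mq q) * ∫⁻ z in F ⁻¹' thickening 1 S, N z ∂(mu P K D F) := by
    intro k
    have hρ0 : 0 < ((k : ℝ) + 1)⁻¹ := by positivity
    have hρ1 : ((k : ℝ) + 1)⁻¹ ≤ 1 := inv_le_one_of_one_le₀ (by
      have : (0 : ℝ) ≤ k := Nat.cast_nonneg k
      linarith)
    have h1 := lint_swap (P := P) (K := K) (D := D) hFc S univ ((k : ℝ) + 1)⁻¹ hNm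
    simp only [Measure.restrict_univ] at h1
    show ∫⁻ t in S, ∫⁻ z, ENNReal.ofReal (ph t ((k : ℝ) + 1)⁻¹ (F z)) * N z ∂(mu P K D F) ≤ _
    rw [h1, ← lintegral_const_mul _ hNm, ← lintegral_indicator hTm]
    refine lintegral_mono fun z => ?_
    by_cases hz : z ∈ F ⁻¹' thickening 1 S
    · rw [indicator_of_mem hz]
      refine mul_le_mul_left ?_ _
      rw [← lint_ph hρ0 (F z)]
      exact setLIntegral_le_lintegral _ _
    · rw [indicator_of_notMem hz]
      have h0 : ∀ a ∈ S, ENNReal.ofReal (ph a ((k : ℝ) + 1)⁻¹ (F z)) = 0 := by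
        intro a ha
        rw [ph_zero hρ0, ENNReal.ofReal_zero]
        intro h2
        exact hz (mem_thickening_iff.2 ⟨a, ha, (mem_ball.1 h2).trans_le hρ1⟩)
      rw [setLIntegral_congr_fun hS h0]
      simp
  have hne : (ENNReal.ofReal v₀)⁻¹ ≠ ⊤ := ENNReal.inv_ne_top.2 hv
  calc ∫⁻ t in S, sN P K D F N v₀ t
      = (ENNReal.ofReal v₀)⁻¹ * ∫⁻ t in S, liminf (fun k : ℕ => uN P K D F N t k) atTop := by
        unfold sN
        exact lintegral_const_mul' _ _ hne
    _ ≤ (ENNReal.ofReal v₀)⁻¹ * liminf (fun k : ℕ => ∫⁻ t in S, uN P K D F N t k) atTop :=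
        mul_le_mul_right (lintegral_liminf_le hum) _
    _ ≤ (ENNReal.ofReal v₀)⁻¹ * (ENNReal.ofReal (mq q) *
          ∫⁻ z in F ⁻¹' thickening 1 S, N z ∂(mu P K D F)) :=
        mul_le_mul_right (liminf_le_of_frequently_le' (Eventually.of_forall hk).frequently) _
    _ = _ := by rw [mul_assoc]

end

end Vale.Agent.P284.H501.K
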