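import Vale.Agent.P284.H650.MixPt
import Vale.Agent.P284.H335.GramLe

/-!
# P284 (helper501), K11: Stokes' formula for the fibre volume

`dJ w J` = density of `θ_1 ∧ θ̄_1 ∧ … ∧ θ_q ∧ θ̄_q ∧ w^{n-q}`, `J` = matrix of the forms `θ_i = dF_i`.

If `h` has compact support on the covering and `∂h = ∑ g_p θ_p`, then `∫ Re (c g_j) dJ = 0`.
-/

open scoped Manifold ContDiff Topology Pointwise ComplexConjugate ComplexOrder Matrix
open Filter Set Metric MeasureTheory

noncomputable section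

namespace Vale.Agent.P284.H501.K

open Vale.Agent.P272.K Vale.Agent.P284.H248 Vale.Agent.P284.H894
  Vale.Agent.P284.H894.V Vale.Agent.P284.H639.V Vale.Agent.P284.H66.S7 Vale.Agent.P284.H650

variable {n q : ℕ} {Γ : Type} [Group Γ] {C : Coc n Γ}

/-- the density `θ_1 ∧ θ̄_1 ∧ … ∧ θ_q ∧ θ̄_q ∧ w^{n-q}` -/
def dJ (w : Matrix (Fin n) (Fin n) ℂ) (J : Matrix (Fin q) (Fin n) ℂ) : ℝ := (MD (Xb w J)).re

theorem Xb_herm {w : Matrix (Fin n) (Fin n) ℂ} (hw : w.IsHermitian) (J : Matrix (Fin q) (Fin n) ℂ)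
    (i : Fin n) : (Xb w J i).IsHermitian := by
  rw [Xb]
  split_ifs with h
  · ext a b
    simp only [rk1, Matrix.conjTranspose_apply, Matrix.of_apply]
    simp [mul_comm]
  · exact hw

theorem dJ_real {w : Matrix (Fin n) (Fin n) ℂ} (hw : w.IsHermitian)
    (J : Matrix (Fin q) (Fin n) ℂ) : ((dJ w J : ℝ) : ℂ) = MD (Xb w J) :=
  MD_real fun i => Xb_herm hw J i

/-- the Gram determinant -/
theorem dJ_eq {w : Matrix (Fin n) (Fin n) ℂ} (hw : w.PosDef) (J : Matrix (Fin q) (Fin n) ℂ)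
    {s : ℕ} (hs : q + s = n) :
    dJ w J = s.factorial * w.det.re * (J.map (starRingEnd ℂ) * w⁻¹ * J.transpose).det.re := by
  have h1 : MD (Xb w J) = (s.factorial : ℂ) * w.det *
      (J.map (starRingEnd ℂ) * w⁻¹ * J.transpose).det := by
    rw [Xb_RS, MD_CB hs _ _ hw.det_pos.ne']
    congr 2
    ext k l
    rw [Matrix.of_apply, Matrix.mul_assoc, Matrix.mul_apply, dotProduct]
    refine Finset.sum_congr rfl fun x _ => ?_
    congr 1
  have h2 : ((w.det.re : ℝ) : ℂ) = w.det := by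
    have := hw.det_pos
    rw [Complex.lt_def] at this
    apply Complex.ext
    · simp
    · simpa using this.2
  rw [dJ, h1, ← h2, mul_assoc, ← Complex.ofReal_natCast, Complex.re_ofReal_mul,
    Complex.re_ofReal_mul, Complex.ofReal_re]
  ring

theorem det_re_pos {w : Matrix (Fin n) (Fin n) ℂ} (hw : w.PosDef) : 0 < w.det.re := by
  have := hw.det_pos
  rw [Complex.lt_def] at this
  simpa using this.1

/-- bound for the Hermitian form -/
theorem form_le (w : Matrix (Fin n) (Fin n) ℂ) : ∃ lam : ℝ, ∀ v : Fin n → ℂ,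
    (∑ j, ∑ k, w j k * v j * conj (v k)).re ≤ lam * ∑ j, ‖v j‖ ^ 2 := by
  refine ⟨∑ j, ∑ k, ‖w j k‖, fun v => ?_⟩
  refine (Complex.re_le_norm _).trans ?_
  calc ‖∑ j, ∑ k, w j k * v j * conj (v k)‖ ≤ ∑ j, ∑ k, ‖w j k * v j * conj (v k)‖ :=
        (norm_sum_le _ _).trans (Finset.sum_le_sum fun j _ => norm_sum_le _ _)
    _ ≤ ∑ j, ∑ k, ‖w j k‖ * ∑ i, ‖v i‖ ^ 2 := by
        refine Finset.sum_le_sum fun j _ => Finset.sum_le_sum fun k _ => ?_
        rw [norm_mul, norm_mul, mul_assoc]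
        refine mul_le_mul_of_nonneg_left ?_ (norm_nonneg _)
        have h1 : ‖v j‖ ^ 2 ≤ ∑ i, ‖v i‖ ^ 2 :=
          Finset.single_le_sum (f := fun i => ‖v i‖ ^ 2) (fun _ _ => sq_nonneg _)
            (Finset.mem_univ j)
        have h2 : ‖v k‖ ^ 2 ≤ ∑ i, ‖v i‖ ^ 2 :=
          Finset.single_le_sum (f := fun i => ‖v i‖ ^ 2) (fun _ _ => sq_nonneg _)
            (Finset.mem_univ k)
        have h3 : ‖conj (v k)‖ = ‖v k‖ := by simp
        rw [h3]
        nlinarith [sq_nonneg (‖v j‖ - ‖v k‖)]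
    _ = _ := by simp only [Finset.sum_mul]

theorem gram_nonneg {w : Matrix (Fin n) (Fin n) ℂ} (hw : w.PosDef) (J : Matrix (Fin q) (Fin n) ℂ) :
    0 ≤ (J.map (starRingEnd ℂ) * w⁻¹ * J.transpose).det.re := by
  obtain ⟨lam, hl⟩ := form_le w
  exact (H335.gram_le J hw (fun _ _ => 0) hl).1

theorem dJ_nonneg {w : Matrix (Fin n) (Fin n) ℂ} (hw : w.PosDef) (J : Matrix (Fin q) (Fin n) ℂ)
    (hq : q ≤ n) : 0 ≤ dJ w J := by
  rw [dJ_eq hw J (s := n - q) (by omega)]
  exact mul_nonneg (mul_nonneg (by positivity) (det_re_pos hw).le) (gram_nonneg hw J)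

/-- the density is positive where the forms are independent -/
theorem dJ_pos {w : Matrix (Fin n) (Fin n) ℂ} (hw : w.PosDef) (J : Matrix (Fin q) (Fin n) ℂ)
    (hq : q ≤ n) {ξ : Fin q → Fin n → ℂ} (hξ : (Matrix.of fun i j => ∑ l, J i l * ξ j l).det ≠ 0) :
    0 < dJ w J := by
  rw [dJ_eq hw J (s := n - q) (by omega)]
  obtain ⟨lam, hl⟩ := form_le w
  obtain ⟨h0, h1⟩ := H335.gram_le J hw ξ hl
  have h2 : 0 < ‖(Matrix.of fun i j => ∑ l, J i l * ξ j l).det‖ ^ 2 := by positivity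
  have h3 : (J.map (starRingEnd ℂ) * w⁻¹ * J.transpose).det.re ≠ 0 := by
    intro h
    rw [h] at h1
    simp only [mul_zero, zero_mul] at h1
    linarith
  have h4 : 0 < (J.map (starRingEnd ℂ) * w⁻¹ * J.transpose).det.re := lt_of_le_of_ne h0 h3.symm
  have h5 : (0 : ℝ) < (n - q).factorial := by exact_mod_cast (n - q).factorial_pos
  exact mul_pos (mul_pos h5 (det_re_pos hw)) h4

/-! ### Stokes -/

section
variable {F : Γ → C.I → Cm n → Cm q} {K : KM C}

/-- the real linear function `2 Re (c̄ t_j)` -/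
def lin (j : Fin q) (c : ℂ) (t : Cm q) : ℝ := 2 * (conj c * t j).re

theorem lin_smooth (j : Fin q) (c : ℂ) : ContDiff ℝ ∞ (lin j c) := by
  have h1 : ContDiff ℝ ∞ (fun t : Cm q => conj c * t j) :=
    contDiff_const.mul (contDiff_apply ℝ ℂ j)
  exact contDiff_const.mul (Complex.reCLM.contDiff.comp h1)

theorem dz_lin (j : Fin q) (c : ℂ) (p : Fin q) (t : Cm q) :
    dz p (fun t => ((lin j c t : ℝ) : ℂ)) t = if p = j then conj c else 0 := by
  have e : (fun t : Cm q => ((lin j c t : ℝ) : ℂ)) = fun t => conj c * t j + c * conj (t j) := by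
    funext t
    rw [lin]
    have h := Complex.add_conj (conj c * t j)
    rw [← h, map_mul, Complex.conj_conj]
  have h0 : ∀ t : Cm q, DifferentiableAt ℂ (fun t : Cm q => t j) t := fun t =>
    (ContinuousLinearMap.proj (R := ℂ) (φ := fun _ : Fin q => ℂ) j).differentiableAt
  have hH : Hol (fun t : Cm q => t j) t := Eventually.of_forall h0
  rw [e, INT.dz_add (hH.diff.const_mul _) (hH.diff_conj.const_mul _),
    C2.dz_const_mul p _ hH.diff, C2.dz_const_mul p _ hH.diff_conj, hH.dz_conj0, mul_zero, add_zero]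
  have h6 : dz p (fun t : Cm q => t j) t = if p = j then 1 else 0 := by
    rw [Vale.Agent.P272.K.dz_of_holo (h0 t)]
    have h7 : fderiv ℂ (fun t : Cm q => t j) t =
        ContinuousLinearMap.proj (R := ℂ) (φ := fun _ : Fin q => ℂ) j :=
      (ContinuousLinearMap.proj (R := ℂ) (φ := fun _ : Fin q => ℂ) j).fderiv
    rw [h7]
    show (Pi.single p (1 : ℂ) : Cm q) j = _
    rw [Pi.single_apply]
    simp only [eq_comm]
  rw [h6]
  split_ifs <;> simp

theorem dzv_lin (hF : HolF C F) (j : Fin q) (c : ℂ) (γ : Γ) {a : C.I} {z : Cm n}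
    (hz : z ∈ C.Ω a) :
    dzv (fun y => lin j c (F γ a y)) z = conj c • JF (F γ a) z j := by
  rw [hF.dzv_comp (lin_smooth j c) γ hz, Finset.sum_eq_single j]
  · rw [dz_lin, if_pos rfl]
  · intro p _ hp
    rw [dz_lin, if_neg hp, zero_smul]
  · intro h
    exact absurd (Finset.mem_univ j) h

theorem dzbv_lin (hF : HolF C F) (j : Fin q) (c : ℂ) (γ : Γ) {a : C.I} {z : Cm n}
    (hz : z ∈ C.Ω a) :
    dzbv (fun y => lin j c (F γ a y)) z = fun l => c * conj (JF (F γ a) z j l) := by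
  rw [dzbv_eq, dzv_lin hF j c γ hz]
  funext l
  simp

theorem cHess_lin (hF : HolF C F) (j : Fin q) (c : ℂ) (γ : Γ) {a : C.I} {z : Cm n}
    (hz : z ∈ C.Ω a) : cHess (fun y => lin j c (F γ a y)) z = 0 := by
  ext i k
  have h1 : (dzb k fun y => ((lin j c (F γ a y) : ℝ) : ℂ)) =ᶠ[𝓝 z]
      fun y => c * conj (JF (F γ a) y j k) := by
    filter_upwards [(isOpen_Ω C a).mem_nhds hz] with y hy
    exact congrFun (dzbv_lin hF j c γ hy) k
  rw [cHess, Matrix.of_apply, C2.dz_congr i h1, Matrix.zero_apply]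
  exact (hF.f01 j c).closed γ a z hz i k

/-- **Stokes for the fibre volume** -/
theorem stk (P : PU C) (hF : HolF C F) (hq : q ≤ n) (j : Fin q) (c : ℂ)
    {h : Γ → C.I → Cm n → ℝ} (hh : IsTst C h) (g : Γ → C.I → Cm n → Fin q → ℂ)
    (hg : ∀ γ a, ∀ z ∈ C.V a, dzv (h γ a) z = ∑ p, g γ a z p • JF (F γ a) z p) :
    Int P K (fun γ a z => (c * g γ a z j).re * (dJ (K.w a z) (JF (F γ a) z) / vol (K.w a) z)) =
      0 := by
  set X : Fin n → Γ → C.I → Cm n → Matrix (Fin n) (Fin n) ℂ := fun i γ a z =>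
    Xb (K.w a z) (JF (F γ a) z) i with hX
  set i₀ : Fin n := Fin.castLE hq j with hi₀
  have h1 := glob_ibp (K := K) (i₀ := i₀) (X := X) P (fun k _ => cf_Xb K hF k)
    hh.smF (hF.comp (lin_smooth j c)) (Or.inl hh)
  have e1 : Int P K (IA K X i₀ h (fun γ a z => lin j c (F γ a z))) = 0 := by
    rw [Vale.Agent.P284.H639.V.Int_congr P K (H := fun _ _ _ => 0)]
    · unfold Vale.Agent.P284.H894.V.Int
      simp
    · intro γ a z hz
      have hz' := V_sub_Ω C a hz
      simp only [IA]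
      rw [cHess_lin hF j c γ hz', MD_update_zero]
      simp
  rw [e1] at h1
  have h2 : Int P K (IB K X i₀ h (fun γ a z => lin j c (F γ a z))) = 0 := by linarith
  rw [← h2]
  refine Vale.Agent.P284.H639.V.Int_congr P K fun γ a z hz => ?_
  have hz' := V_sub_Ω C a hz
  have hw := ((K.ku a).pos z hz').isHermitian
  have e2 : MD (Function.update (fun k => X k γ a z) i₀
      (gg (h γ a) (fun z => lin j c (F γ a z)) z)) =
        (c * g γ a z j) * MD (Xb (K.w a z) (JF (F γ a) z)) := by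
    rw [gg, hg γ a z hz, dzbv_lin hF j c γ hz', rk1_sum_left, MD_update_sum,
      Finset.sum_eq_single j]
    · rw [rk1_smul_left, rk1_smul_right, smul_smul, MD_update_smul, mul_comm c]
      congr 2
      exact (Xb_eq (K.w a z) (JF (F γ a) z) j hq).symm
    · intro p _ hp
      rw [rk1_smul_left, rk1_smul_right, smul_smul, MD_update_smul]
      have hp1 : (Fin.castLE hq p : Fin n) ≠ i₀ := by
        intro h
        exact hp (Fin.ext (by simpa [hi₀] using congrArg Fin.val h))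
      have e3 : (fun k => X k γ a z) = Xb (K.w a z) (JF (F γ a) z) := rfl
      rw [e3, Xb_eq (K.w a z) (JF (F γ a) z) p hq, MD_left_eq _ hp1, mul_zero]
    · intro h
      exact absurd (Finset.mem_univ j) h
  simp only [IB]
  rw [e2, ← dJ_real hw, Complex.re_mul_ofReal]
  ring

end

end Vale.Agent.P284.H501.K
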