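import Vale.Agent.P284.H501.K.Mu2

/-!
# P284 (helper501), K11: Stokes' formula on tubes
-/

open scoped Manifold ContDiff Topology Pointwise ComplexConjugate ComplexOrder Matrix ENNReal
open Filter Set Metric MeasureTheory

noncomputable section

set_option linter.unusedSectionVars false

namespace Vale.Agent.P284.H501.K

open Vale.Agent.P272.K Vale.Agent.P284.H248 Vale.Agent.P284.H894 Vale.Agent.P284.H894.G
  Vale.Agent.P284.H894.V Vale.Agent.P284.H894.W Vale.Agent.P284.H639.V Vale.Agent.P284.H66.S7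
  Vale.Agent.P284.H650 Vale.Agent.P284.H551

/-- a tube over a ball -/
structure Tub {E : Type} [TopologicalSpace E] {q : ℕ} (F : E → Cm q) (t : Cm q) (r : ℝ)
    (O : Set E) : Prop where
  opn : IsOpen O
  sub : ∀ y ∈ O, F y ∈ ball t r
  cmp : IsOpen {y | F y ∈ ball t r ∧ y ∉ O}

section
variable {q : ℕ} {E : Type} [TopologicalSpace E] {F : E → Cm q} {t : Cm q} {r : ℝ} {O : Set E}

/-- a function of `F` cut off by a tube -/
def tf {R : Type} [Zero R] (F : E → Cm q) (O : Set E) (ψ : Cm q → R) : E → R :=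
  O.indicator fun y => ψ (F y)

theorem tf_in {R : Type} [Zero R] (T : Tub F t r O) (ψ : Cm q → R) {y : E} (hy : y ∈ O) :
    ∀ᶠ y' in 𝓝 y, tf F O ψ y' = ψ (F y') := by
  filter_upwards [T.opn.mem_nhds hy] with y' hy'
  exact indicator_of_mem hy' _

theorem tf_out {R : Type} [Zero R] (T : Tub F t r O) (hFc : Continuous F) {ψ : Cm q → R}
    (hs : tsupport ψ ⊆ ball t r) {y : E} (hy : y ∉ O) : ∀ᶠ y' in 𝓝 y, tf F O ψ y' = 0 := by
  by_cases h : F y ∈ ball t r
  · filter_upwards [T.cmp.mem_nhds ⟨h, hy⟩] with y' hy'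
    exact indicator_of_notMem hy'.2 _
  · have h1 : F y ∈ (tsupport ψ)ᶜ := fun h2 => h (hs h2)
    have h2 : IsOpen (F ⁻¹' (tsupport ψ)ᶜ) := (isClosed_tsupport ψ).isOpen_compl.preimage hFc
    filter_upwards [h2.mem_nhds h1] with y' hy'
    unfold tf
    by_cases h3 : y' ∈ O
    · rw [indicator_of_mem h3]
      exact image_eq_zero_of_notMem_tsupport hy'
    · exact indicator_of_notMem h3 _

end

section
variable {n q : ℕ} {Γ X E : Type} [Group Γ] [TopologicalSpace X] [ChartedSpace (Cm n) X]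
  [TopologicalSpace E] [MulAction Γ E] {p : E → X} {C : Coc n Γ}
  {w : Chart n X → Cm n → Matrix (Fin n) (Fin n) ℂ} {B : ℝ}
  {P : PU C} {K : KM C} {D : ECoc p C} {F : E → Cm q}
  [MeasurableSpace E] [BorelSpace E] (hG : IsGalois Γ p)

/-- the cut off function on the sheets -/
def tG (D : ECoc p C) (F : E → Cm q) (O : Set E) (ψ : Cm q → ℝ) (γ : Γ) (a : C.I) : Cm n → ℝ :=
  (C.Ω a).indicator fun z => tf F O ψ (γ • D.σ a z)

theorem tG_ev (O : Set E) (ψ : Cm q → ℝ) (γ : Γ) {a : C.I} {z : Cm n} (hz : z ∈ C.Ω a) :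
    ∀ᶠ z' in 𝓝 z, tG D F O ψ γ a z' = tf F O ψ (γ • D.σ a z') := by
  filter_upwards [(isOpen_Ω C a).mem_nhds hz] with z' hz'
  exact indicator_of_mem hz' _

variable {t : Cm q} {r : ℝ} {O : Set E}

include hG in
theorem tG_in (T : Tub F t r O) (ψ : Cm q → ℝ) {γ : Γ} {a : C.I} {z : Cm n} (hz : z ∈ C.Ω a)
    (hy : γ • D.σ a z ∈ O) : tG D F O ψ γ a =ᶠ[𝓝 z] fun z => ψ (Fc D F γ a z) := by
  filter_upwards [tG_ev (D := D) (F := F) O ψ γ hz,
    (D.cont_at hG γ hz).eventually (tf_in T ψ hy)] with z' h1 h2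
  rw [h1, h2]
  rfl

include hG in
theorem tG_out (T : Tub F t r O) (hFc : Continuous F) {ψ : Cm q → ℝ}
    (hs : tsupport ψ ⊆ ball t r) {γ : Γ} {a : C.I} {z : Cm n} (hz : z ∈ C.Ω a)
    (hy : γ • D.σ a z ∉ O) : tG D F O ψ γ a =ᶠ[𝓝 z] fun _ => 0 := by
  filter_upwards [tG_ev (D := D) (F := F) O ψ γ hz,
    (D.cont_at hG γ hz).eventually (tf_out T hFc hs hy)] with z' h1 h2
  rw [h1, h2]

include hG in
theorem isTst_tG (hF : HolB p w F B) (hFc : Continuous F) {c : Γ → Cm q}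
    (hc : ∀ (g : Γ) y, F (g • y) = F y + c g)
    (hfin : ∀ R : ℝ, {g : Γ | ‖c g‖ ≤ R}.Finite) (T : Tub F t r O) {ψ : Cm q → ℝ}
    (hψ : ContDiff ℝ ∞ ψ) (hs : tsupport ψ ⊆ ball t r) : IsTst C (tG D F O ψ) where
  smooth γ a z hz := by
    by_cases hy : γ • D.σ a z ∈ O
    · exact (((holF_Fc (D := D) hG hF).comp hψ).smooth γ a z hz).congr_of_eventuallyEq
        (tG_in hG T ψ hz hy)
    · exact contDiffAt_const.congr_of_eventuallyEq (tG_out hG T hFc hs hz hy)
  compat γ a b z hz := by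
    have h1 : z ∈ C.Ω a := C.O_sub a b hz
    rw [tG, tG, indicator_of_mem h1, indicator_of_mem (T_mem_Ω C hz), D.smul_T hz]
  fin := by
    refine ((fin_sheets (D := D) hG hFc hc hfin (‖t‖ + r)).image Prod.fst).subset ?_
    rintro γ ⟨a, z, hz, h⟩
    refine ⟨(γ, a), ⟨z, hz, ?_⟩, rfl⟩
    rw [tG, indicator_of_mem (V_sub_Ω C a hz)] at h
    have h1 : γ • D.σ a z ∈ O := by
      by_contra h2
      exact h (indicator_of_notMem h2 _)
    have h2 := mem_ball_iff_norm.1 (T.sub _ h1)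
    calc ‖F (γ • D.σ a z)‖ = ‖t + (F (γ • D.σ a z) - t)‖ := by congr 1; abel
      _ ≤ ‖t‖ + ‖F (γ • D.σ a z) - t‖ := norm_add_le _ _
      _ ≤ _ := by linarith
  out γ a z hz := indicator_of_notMem hz _

include hG in
theorem dzv_tG (hF : HolB p w F B) (hFc : Continuous F) (T : Tub F t r O) {ψ : Cm q → ℝ}
    (hψ : ContDiff ℝ ∞ ψ) (hs : tsupport ψ ⊆ ball t r) (γ : Γ) {a : C.I} {z : Cm n}
    (hz : z ∈ C.Ω a) : dzv (tG D F O ψ γ a) z =
      ∑ j, tf F O (dz j fun t => (ψ t : ℂ)) (γ • D.σ a z) • JF (Fc D F γ a) z j := by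
  have hH := holF_Fc (D := D) hG hF
  by_cases hy : γ • D.σ a z ∈ O
  · have h1 : dzv (tG D F O ψ γ a) z = dzv (fun z => ψ (Fc D F γ a z)) z := by
      funext i
      refine C2.dz_congr i ?_
      filter_upwards [tG_in hG T ψ hz hy] with z' hz'
      rw [hz']
    rw [h1, hH.dzv_comp hψ γ hz]
    refine Finset.sum_congr rfl fun j _ => ?_
    rw [tf, indicator_of_mem hy]
    rfl
  · have h1 : dzv (tG D F O ψ γ a) z = 0 := by
      funext i
      have : (fun y => ((tG D F O ψ γ a y : ℝ) : ℂ)) =ᶠ[𝓝 z] fun _ => 0 := by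
        filter_upwards [tG_out hG T hFc hs hz hy] with z' hz'
        rw [hz']
        simp
      show dz i _ z = 0
      rw [C2.dz_congr i this]
      exact C2.dz_const i 0
    rw [h1]
    symm
    refine Finset.sum_eq_zero fun j _ => ?_
    rw [tf, indicator_of_notMem hy, zero_smul]

include hG in
/-- continuous functions of `F` are integrable over the tubes -/
theorem tube_int (hF : HolB p w F B) (hFc : Continuous F) {c : Γ → Cm q}
    (hc : ∀ (g : Γ) y, F (g • y) = F y + c g)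
    (hfin : ∀ R : ℝ, {g : Γ | ‖c g‖ ≤ R}.Finite) (T : Tub F t r O) {f : Cm q → ℝ}
    (hf : Continuous f) : IntegrableOn (fun y => f (F y)) O (mu P K D F) := by
  obtain ⟨M, hM⟩ := (isCompact_closedBall (0 : Cm q) (‖t‖ + r)).exists_bound_of_continuousOn
    hf.continuousOn
  have hsub : O ⊆ {y | ‖F y‖ ≤ ‖t‖ + r} := by
    intro y hy
    have h2 := mem_ball_iff_norm.1 (T.sub _ hy)
    show ‖F y‖ ≤ _
    calc ‖F y‖ = ‖t + (F y - t)‖ := by congr 1; abel
      _ ≤ ‖t‖ + ‖F y - t‖ := norm_add_le _ _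
      _ ≤ _ := by linarith
  refine Measure.integrableOn_of_bounded (M := M) ?_ (hf.comp hFc).aestronglyMeasurable ?_
  · exact ((measure_mono hsub).trans_lt (mu_fin hG hF hFc hc hfin _)).ne
  · refine (ae_restrict_iff' T.opn.measurableSet).2 (Eventually.of_forall fun y hy => ?_)
    exact hM _ (mem_closedBall_zero_iff.2 (hsub hy))

theorem dz_cont {ψ : Cm q → ℂ} (hψ : ContDiff ℝ ∞ ψ) (j : Fin q) : Continuous (dz j ψ) := by
  unfold Vale.Agent.P272.K.dz
  have h1 : Continuous (fderiv ℝ ψ) := hψ.continuous_fderiv (by simp)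
  have h2 : ∀ v : Cm q, Continuous fun z => fderiv ℝ ψ z v := fun v =>
    h1.clm_apply continuous_const
  exact ((h2 _).sub (continuous_const.mul (h2 _))).div_const _

include hG in
/-- **Stokes on a tube** -/
theorem kl (hq : q ≤ n) (hF : HolB p w F B) (hFc : Continuous F) {c : Γ → Cm q}
    (hc : ∀ (g : Γ) y, F (g • y) = F y + c g)
    (hfin : ∀ R : ℝ, {g : Γ | ‖c g‖ ≤ R}.Finite) (T : Tub F t r O) {ψ : Cm q → ℝ}
    (hψ : ContDiff ℝ ∞ ψ) (hs : tsupport ψ ⊆ ball t r) (j : Fin q) (k : ℂ) :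
    ∫ y in O, (k * dz j (fun t => (ψ t : ℂ)) (F y)).re ∂(mu P K D F) = 0 := by
  have hψc : ContDiff ℝ ∞ fun t => (ψ t : ℂ) := Complex.ofRealCLM.contDiff.comp hψ
  have hcont : Continuous fun s => (k * dz j (fun t => (ψ t : ℂ)) s).re :=
    Complex.continuous_re.comp (continuous_const.mul (dz_cont hψc j))
  have h1 := stk (K := K) P (holF_Fc (D := D) hG hF) hq j k
    (isTst_tG (D := D) hG hF hFc hc hfin T hψ hs)
    (fun γ a z p => tf F O (dz p fun t => (ψ t : ℂ)) (γ • D.σ a z))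
    (fun γ a z hz => dzv_tG hG hF hFc T hψ hs γ (V_sub_Ω C a hz))
  set g : E → ℝ := O.indicator fun y => (k * dz j (fun t => (ψ t : ℂ)) (F y)).re with hg
  have hgm : Measurable g := (hcont.comp hFc).measurable.indicator T.opn.measurableSet
  have hgi : Integrable g (mu P K D F) :=
    (integrable_indicator_iff T.opn.measurableSet).2
      (tube_int (P := P) (K := K) (D := D) hG hF hFc hc hfin T hcont)
  rw [← integral_indicator T.opn.measurableSet, ← Int_eq hG hq hF hc hgm hgi, ← h1]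
  refine Vale.Agent.P284.H639.V.Int_congr P K fun γ a z _ => ?_
  have h2 : g (γ • D.σ a z) =
      (k * tf F O (dz j fun t => (ψ t : ℂ)) (γ • D.σ a z)).re := by
    rw [hg, tf]
    by_cases h : γ • D.σ a z ∈ O
    · rw [indicator_of_mem h, indicator_of_mem h]
    · rw [indicator_of_notMem h, indicator_of_notMem h, mul_zero, Complex.zero_re]
  show g _ * _ = _ * _
  rw [h2]

include hG in
/-- Stokes on a tube, complex functions -/
theorem klc (hq : q ≤ n) (hF : HolB p w F B) (hFc : Continuous F) {c : Γ → Cm q}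
    (hc : ∀ (g : Γ) y, F (g • y) = F y + c g)
    (hfin : ∀ R : ℝ, {g : Γ | ‖c g‖ ≤ R}.Finite) (T : Tub F t r O) {ψ : Cm q → ℂ}
    (hψ : ContDiff ℝ ∞ ψ) (hs : tsupport ψ ⊆ ball t r) (j : Fin q) :
    ∫ y in O, (dz j ψ (F y)).re ∂(mu P K D F) = 0 := by
  have h1 : ContDiff ℝ ∞ fun s => (ψ s).re := Complex.reCLM.contDiff.comp hψ
  have h2 : ContDiff ℝ ∞ fun s => (ψ s).im := Complex.imCLM.contDiff.comp hψ
  have hs1 : tsupport (fun s => (ψ s).re) ⊆ ball t r :=
    (tsupport_comp_subset (g := Complex.re) Complex.zero_re ψ).trans hs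
  have hs2 : tsupport (fun s => (ψ s).im) ⊆ ball t r :=
    (tsupport_comp_subset (g := Complex.im) Complex.zero_im ψ).trans hs
  have h1c : ContDiff ℝ ∞ fun s => (((ψ s).re : ℝ) : ℂ) := Complex.ofRealCLM.contDiff.comp h1
  have h2c : ContDiff ℝ ∞ fun s => (((ψ s).im : ℝ) : ℂ) := Complex.ofRealCLM.contDiff.comp h2
  have e : ∀ s, dz j ψ s = dz j (fun s => (((ψ s).re : ℝ) : ℂ)) s +
      Complex.I * dz j (fun s => (((ψ s).im : ℝ) : ℂ)) s := by
    intro s
    have hd1 : DifferentiableAt ℝ (fun s => (((ψ s).re : ℝ) : ℂ)) s :=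
      h1c.contDiffAt.differentiableAt (by simp)
    have hd2 : DifferentiableAt ℝ (fun s => (((ψ s).im : ℝ) : ℂ)) s :=
      h2c.contDiffAt.differentiableAt (by simp)
    rw [← C2.dz_const_mul j _ hd2, ← C2.dz_add j hd1 (hd2.const_mul _)]
    congr 1
    funext s
    rw [mul_comm]
    exact (Complex.re_add_im _).symm
  have k1 := kl (P := P) (K := K) (D := D) hG hq hF hFc hc hfin T h1 hs1 j 1
  have k2 := kl (P := P) (K := K) (D := D) hG hq hF hFc hc hfin T h2 hs2 j Complex.I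
  have c1 : Continuous fun s => (1 * dz j (fun s => (((ψ s).re : ℝ) : ℂ)) s).re :=
    Complex.continuous_re.comp (continuous_const.mul (dz_cont h1c j))
  have c2 : Continuous fun s => (Complex.I * dz j (fun s => (((ψ s).im : ℝ) : ℂ)) s).re :=
    Complex.continuous_re.comp (continuous_const.mul (dz_cont h2c j))
  have i1 := tube_int (P := P) (K := K) (D := D) hG hF hFc hc hfin T c1
  have i2 := tube_int (P := P) (K := K) (D := D) hG hF hFc hc hfin T c2
  have k3 := integral_add i1 i2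
  rw [k1, k2, add_zero] at k3
  rw [← k3]
  congr 1
  funext y
  rw [e, Complex.add_re, one_mul]

end

end Vale.Agent.P284.H501.K
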