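import Vale.Agent.P284.H501.K.Move
import Vale.Agent.P284.H224.Top

/-!
# P284 (helper501), K11: the volume of the components of the fibres is constant
-/

open scoped Manifold ContDiff Topology Pointwise ComplexConjugate ComplexOrder Matrix ENNReal
open Filter Set Metric MeasureTheory

noncomputable section

set_option linter.unusedSectionVars false

namespace Vale.Agent.P284.H501.K

open Vale.Agent.P272.K Vale.Agent.P284.H248 Vale.Agent.P284.H894 Vale.Agent.P284.H894.G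
  Vale.Agent.P284.H894.V Vale.Agent.P284.H894.W Vale.Agent.P284.H639.V Vale.Agent.P284.H66.S7
  Vale.Agent.P284.H650 Vale.Agent.P284.H551 Vale.Agent.P284.H224 Vale.Agent.P284.H494
  Vale.Agent.P284.H10

/-- the tube of a section -/
def tube {E : Type} [TopologicalSpace E] {q : ℕ} (F : E → Cm q) (σ : Cm q → E) (t : Cm q) (r : ℝ) :
    Set E := {y | F y ∈ ball t r ∧ Same F (σ (F y)) y}

/-- continuous section over a ball -/
structure IsSec {E : Type} [TopologicalSpace E] {q : ℕ} (F : E → Cm q) (R : Set (Cm q))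
    (σ : Cm q → E) (t : Cm q) (r : ℝ) : Prop where
  sub : ball t r ⊆ R
  cont : ContinuousOn σ (ball t r)
  sec : ∀ s ∈ ball t r, F (σ s) = s

section
variable {q : ℕ} {Γ E : Type} [Group Γ] [TopologicalSpace E] [MulAction Γ E] {F : E → Cm q}
  {N : Subgroup Γ} {R : Set (Cm q)}

theorem same_ev (hD : TD F N R) {σ : Cm q → E} {t : Cm q} {r : ℝ} (hσ : IsSec F R σ t r) {z : E}
    (hz : F z ∈ ball t r) : ∀ᶠ z' in 𝓝 z, F z' ∈ ball t r ∧
      (Same F (σ (F z')) z' ↔ Same F (σ (F z)) z) := by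
  have h1 := hσ.sec _ hz
  obtain ⟨U, hU, U', hU', h⟩ := hD.same (σ (F z)) z (by rw [h1]; exact hσ.sub hz) h1.symm
  have h2 : ContinuousAt (fun z => σ (F z)) z :=
    (hσ.cont.continuousAt (isOpen_ball.mem_nhds hz)).comp hD.cont.continuousAt
  have h3 : ∀ᶠ z' in 𝓝 z, F z' ∈ ball t r := hD.cont.continuousAt (isOpen_ball.mem_nhds hz)
  have h4 : ∀ᶠ z' in 𝓝 z, σ (F z') ∈ U := h2 hU
  filter_upwards [h3, h4, hU'] with z' a1 a2 a3
  exact ⟨a1, h _ a2 _ a3 (hσ.sec _ a1)⟩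

theorem tube_tub (hD : TD F N R) {σ : Cm q → E} {t : Cm q} {r : ℝ} (hσ : IsSec F R σ t r) :
    Tub F t r (tube F σ t r) where
  opn := by
    rw [isOpen_iff_mem_nhds]
    rintro z ⟨hz, hs⟩
    filter_upwards [same_ev hD hσ hz] with z' hz'
    exact ⟨hz'.1, hz'.2.2 hs⟩
  sub y hy := hy.1
  cmp := by
    rw [isOpen_iff_mem_nhds]
    rintro z ⟨hz, hs⟩
    filter_upwards [same_ev hD hσ hz] with z' hz'
    exact ⟨hz'.1, fun h => hs ⟨hz, hz'.2.1 h.2⟩⟩

/-- two sections which agree (up to the components of the fibres) at one point -/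
theorem sec_same (hD : TD F N R) {σ σ' : Cm q → E} {t t' : Cm q} {r r' : ℝ}
    (hσ : IsSec F R σ t r) (hσ' : IsSec F R σ' t' r') {s₀ : Cm q} (h0 : s₀ ∈ ball t r)
    (h0' : s₀ ∈ ball t' r') (hs : Same F (σ s₀) (σ' s₀)) {s : Cm q} (h1 : s ∈ ball t r)
    (h1' : s ∈ ball t' r') : Same F (σ s) (σ' s) := by
  have hpre : IsPreconnected (ball t r ∩ ball t' r') :=
    ((convex_ball t r).inter (convex_ball t' r')).isPreconnected
  have key := hpre.induction₂' (fun x y => Same F (σ x) (σ' x) ↔ Same F (σ y) (σ' y))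
    (fun x hx => ?_) (fun x y z _ _ _ h h' => h.trans h') ⟨h0, h0'⟩ ⟨h1, h1'⟩
  · exact key.1 hs
  · have h2 := hσ.sec x hx.1
    have h3 := hσ'.sec x hx.2
    obtain ⟨U, hU, U', hU', h⟩ := hD.same (σ x) (σ' x) (by rw [h2]; exact hσ.sub hx.1)
      (by rw [h2, h3])
    have h4 : ∀ᶠ y in 𝓝 x, σ y ∈ U := (hσ.cont.continuousAt (isOpen_ball.mem_nhds hx.1)) hU
    have h5 : ∀ᶠ y in 𝓝 x, σ' y ∈ U' := (hσ'.cont.continuousAt (isOpen_ball.mem_nhds hx.2)) hU'
    filter_upwards [mem_nhdsWithin_of_mem_nhds h4, mem_nhdsWithin_of_mem_nhds h5,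
      self_mem_nhdsWithin] with y a1 a2 a3
    have h6 := h _ a1 _ a2 (by rw [hσ.sec y a3.1, hσ'.sec y a3.2])
    exact ⟨h6.symm, h6⟩

theorem tube_eq (hD : TD F N R) {σ σ' : Cm q → E} {t t' : Cm q} {r r' : ℝ}
    (hσ : IsSec F R σ t r) (hσ' : IsSec F R σ' t' r') {s₀ : Cm q} (h0 : s₀ ∈ ball t r)
    (h0' : s₀ ∈ ball t' r') (hs : Same F (σ s₀) (σ' s₀)) {z : E} (h1 : F z ∈ ball t r)
    (h1' : F z ∈ ball t' r') : z ∈ tube F σ t r ↔ z ∈ tube F σ' t' r' := by
  have h := sec_same hD hσ hσ' h0 h0' hs h1 h1'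
  exact ⟨fun h2 => ⟨h1', same_trans (same_symm h) h2.2⟩, fun h2 => ⟨h1, same_trans h h2.2⟩⟩

end

section
variable {n q : ℕ} {Γ X E : Type} [Group Γ] [TopologicalSpace X] [ChartedSpace (Cm n) X]
  [TopologicalSpace E] [MulAction Γ E] {p : E → X} {C : Coc n Γ}
  {w : Chart n X → Cm n → Matrix (Fin n) (Fin n) ℂ} {B : ℝ}
  {P : PU C} {K : KM C} {D : ECoc p C} {F : E → Cm q}
  [MeasurableSpace E] [BorelSpace E] (hG : IsGalois Γ p) {N : Subgroup Γ} {R : Set (Cm q)}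

variable (P K D F R) in
/-- `v` is the volume of the component of the fibre through `y` -/
def IsV (y : E) (v : ℝ) : Prop :=
  ∃ (t : Cm q) (r : ℝ) (σ : Cm q → E), IsSec F R σ t r ∧ y ∈ tube F σ t r ∧
    ∀ (a : Cm q) (ρ : ℝ), 0 < ρ → dist a t + ρ < r →
      ∫ z in tube F σ t r, ph a ρ (F z) ∂(mu P K D F) = v

theorem IsV.loc (hD : TD F N R) {y : E} {v : ℝ} (h : IsV P K D F R y v) :
    ∀ᶠ y' in 𝓝 y, IsV P K D F R y' v := by
  obtain ⟨t, r, σ, h1, h2, h3⟩ := h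
  filter_upwards [(tube_tub hD h1).opn.mem_nhds h2] with y' hy'
  exact ⟨t, r, σ, h1, hy', h3⟩

theorem IsV.uniq (hD : TD F N R) {y : E} {v v' : ℝ} (h : IsV P K D F R y v)
    (h' : IsV P K D F R y v') : v = v' := by
  obtain ⟨t, r, σ, h1, h2, h3⟩ := h
  obtain ⟨t', r', σ', h1', h2', h3'⟩ := h'
  have hs : Same F (σ (F y)) (σ' (F y)) := same_trans h2.2 (same_symm h2'.2)
  have d1 : dist (F y) t < r := h2.1
  have d2 : dist (F y) t' < r' := h2'.1
  set ρ := min (r - dist (F y) t) (r' - dist (F y) t') / 2 with hρ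
  have hm : 0 < min (r - dist (F y) t) (r' - dist (F y) t') := lt_min (by linarith) (by linarith)
  have hρ0 : 0 < ρ := by positivity
  have k1 := min_le_left (r - dist (F y) t) (r' - dist (F y) t')
  have k2 := min_le_right (r - dist (F y) t) (r' - dist (F y) t')
  have hρ1 : dist (F y) t + ρ < r := by rw [hρ]; linarith
  have hρ2 : dist (F y) t' + ρ < r' := by rw [hρ]; linarith
  rw [← h3 (F y) ρ hρ0 hρ1, ← h3' (F y) ρ hρ0 hρ2,
    ← integral_indicator (tube_tub hD h1).opn.measurableSet,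
    ← integral_indicator (tube_tub hD h1').opn.measurableSet]
  congr 1
  funext z
  by_cases hz : F z ∈ ball (F y) ρ
  · have hz1 : F z ∈ ball t r := by
      rw [mem_ball] at hz ⊢
      linarith [dist_triangle (F z) (F y) t]
    have hz2 : F z ∈ ball t' r' := by
      rw [mem_ball] at hz ⊢
      linarith [dist_triangle (F z) (F y) t']
    have h4 := tube_eq hD h1 h1' h2.1 h2'.1 hs hz1 hz2
    by_cases h5 : z ∈ tube F σ t r
    · rw [indicator_of_mem h5, indicator_of_mem (h4.1 h5)]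
    · rw [indicator_of_notMem h5, indicator_of_notMem fun h6 => h5 (h4.2 h6)]
  · have h4 : ph (F y) ρ (F z) = 0 := ph_zero hρ0 hz
    by_cases h5 : z ∈ tube F σ t r <;> by_cases h6 : z ∈ tube F σ' t' r' <;>
      simp [h5, h6, h4]

include hG in
/-- every section computes the volume -/
theorem isV_of_sec (hD : TD F N R) (hq : q ≤ n) (hF : HolB p w F B) {c : Γ → Cm q}
    (hc : ∀ (g : Γ) y, F (g • y) = F y + c g)
    (hfin : ∀ R : ℝ, {g : Γ | ‖c g‖ ≤ R}.Finite) {σ : Cm q → E} {t : Cm q} {r : ℝ}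
    (hσ : IsSec F R σ t r) {a : Cm q} {ρ : ℝ} (hρ : 0 < ρ) (ha : dist a t + ρ < r) {y : E}
    (hy : y ∈ tube F σ t r) :
    IsV P K D F R y (∫ z in tube F σ t r, ph a ρ (F z) ∂(mu P K D F)) :=
  ⟨t, r, σ, hσ, hy, fun _ _ hρ' ha' =>
    move hG hq hF hD.cont hc hfin (tube_tub hD hσ) hρ' hρ ha' ha⟩

include hG in
/-- the volume is positive -/
theorem vol_tube_pos [IsManifold 𝓘(ℂ, Cm n) ω X] (hD : TD F N R) (hq : q ≤ n)
    (hF : HolB p w F B) {c : Γ → Cm q}
    (hc : ∀ (g : Γ) y, F (g • y) = F y + c g)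
    (hfin : ∀ R : ℝ, {g : Γ | ‖c g‖ ≤ R}.Finite) (hR : ∀ y, F y ∈ R → Reg (n := n) p F y)
    {σ : Cm q → E} {t : Cm q} {r : ℝ} (hσ : IsSec F R σ t r) {a : Cm q} {ρ : ℝ} (hρ : 0 < ρ)
    (ha : dist a t + ρ < r) : 0 < ∫ z in tube F σ t r, ph a ρ (F z) ∂(mu P K D F) := by
  have hT := tube_tub hD hσ
  have haB : a ∈ ball t r := by rw [mem_ball]; linarith
  set U : Set E := tube F σ t r ∩ F ⁻¹' ball a (ρ / 2) with hU
  have hUo : IsOpen U := hT.opn.inter (isOpen_ball.preimage hD.cont)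
  have hyU : σ a ∈ U := by
    have h1 := hσ.sec a haB
    refine ⟨⟨by rw [h1]; exact haB, ?_⟩, ?_⟩
    · rw [h1]
      exact same_refl _
    · show F (σ a) ∈ ball a (ρ / 2)
      rw [h1]
      exact mem_ball_self (by positivity)
  have hpos := mu_pos (P := P) (K := K) (D := D) hG hq hF hc hUo hyU
    (hR _ (by rw [hσ.sec a haB]; exact hσ.sub haB))
  have hint := tube_int (P := P) (K := K) (D := D) hG hF hD.cont hc hfin hT
    (ph_smooth a ρ).continuous
  rw [integral_pos_iff_support_of_nonneg_ae (Eventually.of_forall fun z => ph_nonneg a _) hint]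
  refine hpos.trans_le ?_
  have hUr : mu P K D F U = (mu P K D F).restrict (tube F σ t r) U := by
    rw [Measure.restrict_apply hUo.measurableSet, inter_eq_left.2 inter_subset_left]
  rw [hUr]
  refine measure_mono fun z hz => ?_
  show ph a ρ (F z) ≠ 0
  have h2 : F z ∈ ball a (ρ / 2) := hz.2
  have h3 : b0 q (ρ⁻¹ • (F z - a)) = 1 := by
    refine (b0 q).one_of_mem_closedBall ?_
    rw [mem_closedBall_zero_iff, norm_smul, norm_inv, Real.norm_of_nonneg hρ.le,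
      inv_mul_le_iff₀ hρ]
    show ‖F z - a‖ ≤ ρ * (1 / 2)
    have := mem_ball_iff_norm.1 h2
    linarith
  rw [ph, h3, mul_one]
  exact inv_ne_zero (pow_ne_zero _ hρ.ne')

include hG in
/-- **the volume of the components of the regular fibres is constant** -/
theorem vol_const [IsManifold 𝓘(ℂ, Cm n) ω X] (hD : TD F N R) (hq : q ≤ n)
    (hF : HolB p w F B) {c : Γ → Cm q}
    (hc : ∀ (g : Γ) y, F (g • y) = F y + c g)
    (hfin : ∀ R : ℝ, {g : Γ | ‖c g‖ ≤ R}.Finite) (hR : ∀ y, F y ∈ R → Reg (n := n) p F y)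
    [ConnectedSpace E] : ∃ v₀ : ℝ, 0 < v₀ ∧ ∀ (σ : Cm q → E) (t : Cm q) (r : ℝ),
      IsSec F R σ t r → ∀ (a : Cm q) (ρ : ℝ), 0 < ρ → dist a t + ρ < r →
        ∫ z in tube F σ t r, ph a ρ (F z) ∂(mu P K D F) = v₀ := by
  have hex : ∀ y, F y ∈ R → ∃ v, 0 < v ∧ IsV P K D F R y v := by
    intro y hy
    obtain ⟨r₁, hr₁, σ, hσ, hσy, hσF⟩ := exists_section hG.cov hF (hR y hy)
    obtain ⟨r₂, hr₂, hb⟩ := Metric.isOpen_iff.1 hD.ropen _ hy
    have hr : 0 < min r₁ r₂ := lt_min hr₁ hr₂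
    have h1 : IsSec F R σ (F y) (min r₁ r₂) :=
      ⟨(ball_subset_ball (min_le_right _ _)).trans hb, hσ.mono (ball_subset_ball (min_le_left _ _)),
        fun s hs => hσF s (ball_subset_ball (min_le_left _ _) hs)⟩
    have h2 : dist (F y) (F y) + min r₁ r₂ / 2 < min r₁ r₂ := by
      rw [dist_self]
      linarith
    refine ⟨_, vol_tube_pos (P := P) (K := K) (D := D) hG hD hq hF hc hfin hR h1 (half_pos hr) h2,
      isV_of_sec hG hD hq hF hc hfin h1 (half_pos hr) h2 ⟨mem_ball_self hr, ?_⟩⟩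
    rw [hσy]
    exact same_refl y
  have hpre : IsPreconnected (univ ∩ F ⁻¹' R) := hD.upc univ isOpen_univ isPreconnected_univ
  rw [univ_inter] at hpre
  have hconst : ∀ y y', F y ∈ R → F y' ∈ R → ∃ v, IsV P K D F R y v ∧ IsV P K D F R y' v := by
    intro y y' hy hy'
    refine hpre.induction₂' (fun x y => ∃ v, IsV P K D F R x v ∧ IsV P K D F R y v)
      (fun x hx => ?_) (fun x y z _ _ _ h h' => ?_) hy hy'
    · obtain ⟨v, -, hv⟩ := hex x hx
      filter_upwards [mem_nhdsWithin_of_mem_nhds (hv.loc hD)] with y hy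
      exact ⟨⟨v, hv, hy⟩, ⟨v, hy, hv⟩⟩
    · obtain ⟨v, h1, h2⟩ := h
      obtain ⟨v', h3, h4⟩ := h'
      have h5 := h2.uniq hD h3
      subst h5
      exact ⟨v, h1, h4⟩
  by_cases hne : ∃ y, F y ∈ R
  · obtain ⟨y₀, hy₀⟩ := hne
    obtain ⟨v₀, hv₀, hV₀⟩ := hex y₀ hy₀
    refine ⟨v₀, hv₀, fun σ t r hσ a ρ hρ ha => ?_⟩
    have haB : a ∈ ball t r := by rw [mem_ball]; linarith
    have h1 := hσ.sec a haB
    have hya : σ a ∈ tube F σ t r := by
      refine ⟨by rw [h1]; exact haB, ?_⟩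
      rw [h1]
      exact same_refl _
    obtain ⟨v, h2, h3⟩ := hconst y₀ (σ a) hy₀ (by rw [h1]; exact hσ.sub haB)
    have h4 := isV_of_sec (P := P) (K := K) (D := D) hG hD hq hF hc hfin hσ hρ ha hya
    rw [h4.uniq hD h3]
    exact h2.uniq hD hV₀
  · refine ⟨1, one_pos, fun σ t r hσ a ρ hρ ha => ?_⟩
    have haB : a ∈ ball t r := by rw [mem_ball]; linarith
    exact absurd ⟨σ a, by rw [hσ.sec a haB]; exact hσ.sub haB⟩ hne

end

end Vale.Agent.P284.H501.K
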